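import Vale.Agent.P006.H9.Main
import Vale.Agent.P006.H2.Ineq
import Vale.Agent.P006.KU.Inst

/-!
P006, block R1-B: the series `FS f` of block FC is the Eisenstein series `E 1 f` at the cusp `0`,
and its part `p ∣ d` is the Eisenstein series of level `p` at a cusp equivalent to `0` modulo
`Γ(3)`. Transfer of the strip inequalities of block H.
-/

namespace Vale.Agent.P006.R1

open Matrix Complex ENNReal Set MeasureTheory H9 FC

/-- the row character `(c/d)_3` -/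
noncomputable def eta (c d : O) : ℂ := toC (sym c d)

theorem rowChar_eta : RowChar eta where
  mul g hg h hh := by
    have := map_mul KU.kubC ⟨g, hg⟩ ⟨h, hh⟩
    rw [KU.kubC_apply, KU.kubC_apply, KU.kubC_apply] at this
    exact this
  norm g hg := KU.norm_kubC ⟨g, hg⟩

/-- `(c/d)_3` is invariant under conjugation by `S` -/
theorem chiOf_eta_S : ∀ g ∈ KU.Gamma3 O,
    chiOf eta (KU.Smat O * g * (KU.Smat O)⁻¹) = chiOf eta g := by
  intro g hg
  have hg' : KU.Smat O * g * (KU.Smat O)⁻¹ ∈ KU.Gamma3 O := conj_mem_Gamma3 hg _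
  have h := KU.kubC_S_conj ⟨_, hg'⟩
  rw [KU.kubC_apply, KU.kubC_apply] at h
  have e : (KU.Smat O)⁻¹ * (KU.Smat O * g * (KU.Smat O)⁻¹) * KU.Smat O = g := by group
  simp only [e] at h
  rw [chiOf, chiOf, eta, eta, h]

/-- the series of block FC with an additional weight `a d` -/
noncomputable def FSa (a : O → ℂ) (f : ℝ → ℂ) (p : ℂ × ℝ) : ℂ :=
  ∑' i : PD × O, a i.1 * term f i.1 i.2 p

theorem FSa_one (f : ℝ → ℂ) : FSa (fun _ => 1) f = FS f := by
  ext p; simp [FSa, FS]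

/-- the series over the rows with an additional weight `a d` -/
noncomputable def Ea (a : O → ℂ) (f : ℝ → ℂ) (w : H3) : ℂ :=
  ∑' r : PP 1, a r.1.2 * (eta r.1.1 r.1.2 * f (Q w (toC r.1.1) (toC r.1.2)))

theorem Ea_one (f : ℝ → ℂ) : Ea (fun _ => 1) f = E 1 eta f := by
  ext p; simp [Ea, E]

/-- the index of the row `(3 m, d)` -/
noncomputable def rowIdx (r : PP 1) : PD × O := (⟨r.1.2, r.2.2.2.2⟩, r.2.2.1.choose)

theorem rowIdx_spec (r : PP 1) : r.1.1 = 3 * (rowIdx r).2 := r.2.2.1.choose_spec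

theorem three_ne_zero' : (3 : O) ≠ 0 := by
  intro h
  have := congrArg N h
  revert this; decide

theorem rowIdx_injective : Function.Injective rowIdx := by
  intro r s h
  have h1 : r.1.2 = s.1.2 := congrArg (fun x : PD × O => (x.1 : O)) h
  have h2 : (rowIdx r).2 = (rowIdx s).2 := congrArg Prod.snd h
  have h3 : r.1.1 = s.1.1 := by rw [rowIdx_spec, rowIdx_spec, h2]
  exact Subtype.ext (Prod.ext h3 h1)

theorem Q_S (c d : O) {z : ℂ} {y : ℝ} (hy : 0 < y) :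
    Q (KU.Smat O • H3.of z y) (toC c) (toC d)
      = (normSq (toC d * z - toC c) + normSq (toC d) * y ^ 2) / y := by
  rw [Q_smul]
  have e1 : c * KU.Smat O 0 0 + d * KU.Smat O 1 0 = d := by simp [KU.Smat]
  have e2 : c * KU.Smat O 0 1 + d * KU.Smat O 1 1 = -c := by simp [KU.Smat]
  rw [e1, e2, Q, den, H3.of_z, H3.of_v hy, map_neg, sub_eq_add_neg]

/-- **bridge** at the cusp `0` -/
theorem Ea_S (a : O → ℂ) (f : ℝ → ℂ) {z : ℂ} {y : ℝ} (hy : 0 < y) :
    Ea a f (KU.Smat O • H3.of z y) = FSa a f (z, y) := by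
  rw [Ea, FSa, ← rowIdx_injective.tsum_eq]
  · refine tsum_congr fun r => ?_
    set i := rowIdx r with hi
    have h1 : r.1.1 = 3 * i.2 := rowIdx_spec r
    have h2 : r.1.2 = (i.1 : O) := rfl
    have hd : (i.1 : O) ≠ 0 := i.1.2.ne_zero
    have hd' : toC (i.1 : O) ≠ 0 := by simpa using hd
    rw [Q_S _ _ hy, h1, h2, term, fd, eta]
    congr 3
    have e : toC (i.1 : O) * z - toC (3 * i.2) = toC (i.1 : O) * (z - 3 * toC i.2 / toC (i.1 : O)) := by
      rw [map_mul, map_ofNat]; field_simp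
    rw [e, normSq_mul, normSq_eq_norm_sq (z - _), ← N_cast_real]
    ring
  · intro i hi
    have hne : sym (3 * i.2) (i.1 : O) ≠ 0 := by
      intro h0
      apply hi
      simp [term, h0]
    have hcop : IsCoprime (3 * i.2) (i.1 : O) := by
      by_contra hcon
      exact hne (sym_eq_zero.2 hcon)
    refine ⟨⟨(3 * i.2, (i.1 : O)), hcop, Dvd.intro _ rfl, one_dvd _, i.1.2⟩, ?_⟩
    apply Prod.ext
    · rfl
    · have := rowIdx_spec ⟨(3 * i.2, (i.1 : O)), hcop, Dvd.intro _ rfl, one_dvd _, i.1.2⟩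
      exact (mul_left_cancel₀ three_ne_zero' this).symm

/-- `FS f = E_f(S ·)` -/
theorem E_S (f : ℝ → ℂ) {z : ℂ} {y : ℝ} (hy : 0 < y) :
    E 1 eta f (KU.Smat O • H3.of z y) = FS f (z, y) := by
  rw [← Ea_one, Ea_S _ _ hy, FSa_one]

/-! ### level `p` -/

/-- an element of `Γ(3)` with bottom row `(-3, p)` -/
theorem exists_gam {p : O} (hp : Primary p) :
    ∃ γ ∈ KU.Gamma3 O, γ 1 0 = -3 ∧ γ 1 1 = p := by
  refine KU.exists_row ((dvd_neg).2 dvd_rfl) hp ?_
  exact hp.isCoprime_three.neg_left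

theorem row_mul_mem {q : O} (r : PP q) {γ : SpecialLinearGroup (Fin 2) O} (hγ : γ ∈ KU.Gamma3 O) :
    ((r.1.1 * γ 0 0 + r.1.2 * γ 1 0, r.1.1 * γ 0 1 + r.1.2 * γ 1 1) : O × O) ∈ PP 1 := by
  have h := row_mem_PP (q := 1) (Gamma3_le_Gam_one (Subgroup.mul_mem _ (rrep_mem r).1 hγ))
  rwa [KU.mul_10, KU.mul_11, rrep_10, rrep_11] at h

theorem eta_row_mul {q : O} (r : PP q) {γ : SpecialLinearGroup (Fin 2) O} (hγ : γ ∈ KU.Gamma3 O) :
    eta (r.1.1 * γ 0 0 + r.1.2 * γ 1 0) (r.1.1 * γ 0 1 + r.1.2 * γ 1 1)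
      = eta r.1.1 r.1.2 * eta (γ 1 0) (γ 1 1) := by
  have h := rowChar_eta.mul _ (rrep_mem r).1 γ hγ
  rwa [KU.mul_10, KU.mul_11, rrep_10, rrep_11] at h

/-- the part `p ∣ d` of the Eisenstein series is the Eisenstein series of level `p`,
up to translation by `γ ∈ Γ(3)` with bottom row `(-3, p)` -/
theorem E_level {p : O} {γ : SpecialLinearGroup (Fin 2) O}
    (hγ : γ ∈ KU.Gamma3 O) (h11 : γ 1 1 = p) (f : ℝ → ℂ) (w : H3) :
    E p eta f (γ • w) = chiOf eta γ * Ea (fun d => if p ∣ d then 1 else 0) f w := by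
  classical
  let ψ : PP p → PP 1 := fun r => ⟨_, row_mul_mem r hγ⟩
  have hdet := KU.det_eq γ
  have hψ1 : ∀ r : PP p, (ψ r).1.1 = r.1.1 * γ 0 0 + r.1.2 * γ 1 0 := fun r => rfl
  have hψ2 : ∀ r : PP p, (ψ r).1.2 = r.1.1 * γ 0 1 + r.1.2 * γ 1 1 := fun r => rfl
  have hinv : ∀ r : PP p, r.1.1 = (ψ r).1.1 * γ 1 1 - (ψ r).1.2 * γ 1 0 ∧
      r.1.2 = -(ψ r).1.1 * γ 0 1 + (ψ r).1.2 * γ 0 0 := by
    intro r
    rw [hψ1, hψ2]
    constructor
    · linear_combination (-r.1.1) * hdet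
    · linear_combination (-r.1.2) * hdet
  have hinj : Function.Injective ψ := by
    intro r s h
    have e1 := hinv r
    have e2 := hinv s
    rw [h] at e1
    exact Subtype.ext (Prod.ext (e1.1.trans e2.1.symm) (e1.2.trans e2.2.symm))
  have hdvd : ∀ r : PP p, p ∣ (ψ r).1.2 := by
    intro r
    rw [hψ2, h11]
    exact dvd_add (r.2.2.2.1.mul_right _) (dvd_mul_left _ _)
  have hunit : chiOf eta γ * eta (γ 1 0) (γ 1 1) = 1 := by
    rw [chiOf, Complex.conj_mul', rowChar_eta.norm γ hγ]; simp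
  rw [Ea, E, ← tsum_mul_left]
  rw [← hinj.tsum_eq]
  · refine tsum_congr fun r => ?_
    rw [if_pos (hdvd r), Q_smul, hψ1, hψ2, eta_row_mul r hγ]
    linear_combination (-(eta r.1.1 r.1.2 * f (Q w (toC (r.1.1 * γ 0 0 + r.1.2 * γ 1 0))
      (toC (r.1.1 * γ 0 1 + r.1.2 * γ 1 1))))) * hunit
  · intro s hs
    have hps : p ∣ s.1.2 := by
      by_contra hcon
      apply hs
      simp [hcon]
    -- the preimage
    have hmem : ((s.1.1 * γ 1 1 - s.1.2 * γ 1 0, -s.1.1 * γ 0 1 + s.1.2 * γ 0 0) : O × O) ∈ PP p := by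
      have h := row_mul_mem s (Subgroup.inv_mem _ hγ)
      rw [KU.inv_00, KU.inv_01, KU.inv_10, KU.inv_11] at h
      obtain ⟨a1, a2, -, a4⟩ := h
      have e1 : s.1.1 * γ 1 1 + s.1.2 * -γ 1 0 = s.1.1 * γ 1 1 - s.1.2 * γ 1 0 := by ring
      have e2 : s.1.1 * -γ 0 1 + s.1.2 * γ 0 0 = -s.1.1 * γ 0 1 + s.1.2 * γ 0 0 := by ring
      simp only [e1, e2] at a1 a2 a4
      refine ⟨a1, a2, ?_, a4⟩
      show p ∣ s.1.1 * γ 1 1 - s.1.2 * γ 1 0
      rw [h11]
      exact dvd_sub (dvd_mul_left _ _) (hps.mul_right _)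
    refine ⟨⟨_, hmem⟩, ?_⟩
    apply Subtype.ext
    apply Prod.ext
    · show (s.1.1 * γ 1 1 - s.1.2 * γ 1 0) * γ 0 0 + (-s.1.1 * γ 0 1 + s.1.2 * γ 0 0) * γ 1 0 = s.1.1
      linear_combination s.1.1 * hdet
    · show (s.1.1 * γ 1 1 - s.1.2 * γ 1 0) * γ 0 1 + (-s.1.1 * γ 0 1 + s.1.2 * γ 0 0) * γ 1 1 = s.1.2
      linear_combination s.1.2 * hdet

/-- the weight `1_{p ∣ d} - 1/(N p + 1)` -/
noncomputable def aw (p : O) (d : O) : ℂ := (if p ∣ d then 1 else 0) - ((N p + 1 : ℕ) : ℂ)⁻¹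

theorem norm_aw_le (p d : O) : ‖aw p d‖ ≤ 1 := by
  have h1 : (0 : ℝ) ≤ N p := Nat.cast_nonneg _
  have h2 : ((N p + 1 : ℕ) : ℂ)⁻¹ = (((N p + 1 : ℝ)⁻¹ : ℝ) : ℂ) := by push_cast; rfl
  have h3 : 0 ≤ (N p + 1 : ℝ)⁻¹ := by positivity
  have h4 : (N p + 1 : ℝ)⁻¹ ≤ 1 := inv_le_one_of_one_le₀ (by linarith)
  unfold aw
  rw [h2]
  split_ifs with h
  · rw [← Complex.ofReal_one, ← Complex.ofReal_sub, Complex.norm_real, Real.norm_eq_abs, abs_le]
    constructor <;> linarith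
  · rw [zero_sub, norm_neg, Complex.norm_real, Real.norm_eq_abs, abs_le]
    constructor <;> linarith

theorem summable_Ea {f : ℝ → ℂ} {A : ℝ} (h : Decay f A) {a : O → ℂ} {C : ℝ}
    (ha : ∀ d, ‖a d‖ ≤ C) (w : H3) :
    Summable fun r : PP 1 => a r.1.2 * (eta r.1.1 r.1.2 * f (Q w (toC r.1.1) (toC r.1.2))) := by
  have h1 := (summable_E rowChar_eta h 1 w).norm.mul_left C
  refine Summable.of_norm_bounded h1 fun r => ?_
  rw [norm_mul]
  exact mul_le_mul_of_nonneg_right (ha _) (norm_nonneg _)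

/-- **bridge** for the difference of level `p` -/
theorem Ediff_eq {f : ℝ → ℂ} {A : ℝ} (h : Decay f A) {p : O}
    {γ : SpecialLinearGroup (Fin 2) O}
    (hγ : γ ∈ KU.Gamma3 O) (h11 : γ 1 1 = p) {z : ℂ} {y : ℝ} (hy : 0 < y) :
    Ediff p eta f (γ • KU.Smat O • H3.of z y) = chiOf eta γ * FSa (aw p) f (z, y) := by
  set w := KU.Smat O • H3.of z y with hw
  have h1 := E_level hγ h11 f w
  have h2 := E_aut rowChar_eta 1 f γ (Gamma3_le_Gam_one hγ) w
  rw [Ediff, h1, h2, ← Ea_one, ← Ea_S _ _ hy, ← hw]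
  have s1 := summable_Ea h (a := fun d => if p ∣ d then 1 else 0) (C := 1) (fun d => by
    split_ifs <;> simp) w
  have s2 := summable_Ea h (a := fun _ => 1) (C := 1) (fun d => by simp) w
  have e : Ea (aw p) f w = Ea (fun d => if p ∣ d then 1 else 0) f w
      - ((N p + 1 : ℕ) : ℂ)⁻¹ * Ea (fun _ => 1) f w := by
    rw [Ea, Ea, Ea, ← tsum_mul_left, ← s1.tsum_sub (s2.mul_left _)]
    refine tsum_congr fun r => ?_
    rw [aw]; ring
  rw [e]; ring

/-! ### strips in the measure `dz dy` -/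

theorem B_eq_box : B = box := rfl

theorem strip_transfer {Φ : H3 → ℝ≥0∞} (hΦ : Measurable Φ) {a : ℝ} (ha : 0 < a) :
    ∫⁻ p, Φ (H3.of p.1 p.2) ∂(mB (km (Ioc a (2 * a))))
      ≤ ENNReal.ofReal (8 * a ^ 3) * ∫⁻ w in Ptop a, Φ w ∂muH := by
  have h1 : ∫⁻ w in Ptop a, Φ w ∂muH
      = ∫⁻ w in P3, {w : H3 | a < w.v}.indicator Φ w ∂muH := by
    have hm : MeasurableSet {w : H3 | a < w.v} := measurableSet_lt measurable_const H3.measurable_v
    rw [Ptop, inter_comm, ← Measure.restrict_restrict hm, ← lintegral_indicator hm]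
  have hind : Measurable ({w : H3 | a < w.v}.indicator Φ) :=
    hΦ.indicator (measurableSet_lt measurable_const H3.measurable_v)
  have hm2 : Measurable fun p : ℂ × ℝ => Φ (H3.of p.1 p.2) := hΦ.comp H3.measurable_of
  rw [h1, lintegral_P3 hind, mB, lintegral_prod_symm' _ hm2]
  have hmi : Measurable fun v : ℝ => ∫⁻ z in box, {w : H3 | a < w.v}.indicator Φ (H3.of z v) :=
    Measurable.lintegral_prod_left' (f := fun p : ℂ × ℝ =>
      {w : H3 | a < w.v}.indicator Φ (H3.of p.1 p.2)) (hind.comp H3.measurable_of)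
  rw [← lintegral_const_mul _ (by fun_prop)]
  calc ∫⁻ y in Ioc a (2 * a), ∫⁻ z in B, Φ (H3.of z y)
      ≤ ∫⁻ v in Ioc a (2 * a), ENNReal.ofReal (8 * a ^ 3) * (ENNReal.ofReal ((v ^ 3)⁻¹) *
          ∫⁻ z in box, {w : H3 | a < w.v}.indicator Φ (H3.of z v)) := by
        refine setLIntegral_mono' measurableSet_Ioc fun v hv => ?_
        have hv0 : 0 < v := ha.trans hv.1
        have e1 : ∫⁻ z in B, Φ (H3.of z v)
            = ∫⁻ z in box, {w : H3 | a < w.v}.indicator Φ (H3.of z v) := by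
          rw [B_eq_box]
          refine lintegral_congr fun z => ?_
          rw [indicator_of_mem]
          show a < (H3.of z v).v
          rw [H3.of_v hv0]; exact hv.1
        rw [e1, ← mul_assoc, ← ENNReal.ofReal_mul (by positivity)]
        refine le_mul_of_one_le_left bot_le ?_
        rw [ENNReal.one_le_ofReal, ← div_eq_mul_inv, le_div_iff₀ (by positivity), one_mul]
        have h2 : v ^ 3 ≤ (2 * a) ^ 3 := pow_le_pow_left₀ hv0.le hv.2 3
        calc v ^ 3 ≤ (2 * a) ^ 3 := h2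
          _ = 8 * a ^ 3 := by ring
    _ ≤ ∫⁻ v in Ioi (0 : ℝ), ENNReal.ofReal (8 * a ^ 3) * (ENNReal.ofReal ((v ^ 3)⁻¹) *
          ∫⁻ z in box, {w : H3 | a < w.v}.indicator Φ (H3.of z v)) := by
        refine lintegral_mono_set fun v hv => ?_
        exact ha.trans hv.1

/-- general form of the transfer for automorphic functions of level `q` at the cusp `σ` -/
theorem strip_aut_Ioc {η : O → O → ℂ} (hη : RowChar η) {q : O} {F : H3 → ℂ} (hF : Measurable F)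
    (hFa : Aut (Gam q) (chiOf η) F) (σ : SpecialLinearGroup (Fin 2) O) {a : ℝ} (ha : 0 < a) :
    ∫⁻ p, ‖F (σ • H3.of p.1 p.2)‖ₑ ^ 2 ∂(mB (km (Ioc a (2 * a))))
      ≤ ENNReal.ofReal (51200 * (a ^ 3 + a)) * ∫⁻ w, ‖F w‖ₑ ^ 2 ∂(qB (Gam q)) := by
  have hm : Measurable fun w : H3 => ‖F (σ • w)‖ₑ ^ 2 :=
    ((hF.comp (measurable_const_smul σ)).enorm).pow_const 2
  refine (strip_transfer (Φ := fun w => ‖F (σ • w)‖ₑ ^ 2) hm ha).trans ?_
  refine (mul_le_mul_right (strip_aut hη hF hFa σ ha) _).trans (le_of_eq ?_)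
  rw [← mul_assoc, ← ENNReal.ofReal_mul (by positivity)]
  congr 2
  field_simp
  ring

/-- **(HS)** for `FS f` -/
theorem strip_FS {f : ℝ → ℂ} (hf : Measurable f) {A : ℝ} (h : Decay f A) {a : ℝ} (ha : 0 < a) :
    ∫⁻ p, ‖FS f p‖ₑ ^ 2 ∂(mB (km (Ioc a (2 * a))))
      ≤ ENNReal.ofReal (51200 * (a ^ 3 + a)) * ENNReal.ofReal
        (∫ w in P3, f (1 / w.v) * (starRingEnd ℂ) (E 1 eta f w) ∂muH).re := by
  rw [← norm_E rowChar_eta hf h 1]
  refine le_trans (le_of_eq ?_) (strip_aut_Ioc rowChar_eta (measurable_E 1 eta hf)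
    (E_aut rowChar_eta 1 f) (KU.Smat O) ha)
  refine lintegral_congr_ae ?_
  have hpos : ∀ᵐ p ∂(mB (km (Ioc a (2 * a)))), 0 < p.2 := by
    have h1 : ∀ᵐ y ∂(km (Ioc a (2 * a))), 0 < y := by
      rw [ae_restrict_iff' measurableSet_Ioc]
      exact Filter.Eventually.of_forall fun y hy => ha.trans hy.1
    exact Measure.quasiMeasurePreserving_snd.ae h1
  filter_upwards [hpos] with p hp
  rw [E_S f hp]

/-- **(HS)** for the level `p` difference -/
theorem strip_FSa {f : ℝ → ℂ} (hf : Measurable f) {A : ℝ} (h : Decay f A) {p : O}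
    (hp : Prime p) (hpp : Primary p) {a : ℝ} (ha : 0 < a) :
    ∫⁻ x, ‖FSa (aw p) f x‖ₑ ^ 2 ∂(mB (km (Ioc a (2 * a))))
      ≤ ENNReal.ofReal (51200 * (a ^ 3 + a)) * ENNReal.ofReal
        (∫ w in P3, f (1 / w.v) * (starRingEnd ℂ) (Ediff p eta f w) ∂muH).re := by
  obtain ⟨γ, hγ, -, h11⟩ := exists_gam hpp
  rw [← norm_Ediff rowChar_eta hf h hp hpp.isCoprime_three]
  refine le_trans (le_of_eq ?_) (strip_aut_Ioc rowChar_eta (measurable_Ediff hf p)
    (Ediff_aut rowChar_eta p) (γ * KU.Smat O) ha)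
  refine lintegral_congr_ae ?_
  have hpos : ∀ᵐ p ∂(mB (km (Ioc a (2 * a)))), 0 < p.2 := by
    have h1 : ∀ᵐ y ∂(km (Ioc a (2 * a))), 0 < y := by
      rw [ae_restrict_iff' measurableSet_Ioc]
      exact Filter.Eventually.of_forall fun y hy => ha.trans hy.1
    exact Measure.quasiMeasurePreserving_snd.ae h1
  filter_upwards [hpos] with x hx
  rw [mul_smul, Ediff_eq h hγ h11 hx, enorm_mul]
  have : ‖chiOf eta γ‖ₑ = 1 := by
    rw [← ofReal_norm, (rowChar_eta.isChar 1).norm γ (Gamma3_le_Gam_one hγ), ENNReal.ofReal_one]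
  rw [this, one_mul]

end Vale.Agent.P006.R1
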