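import Vale.Agent.P006.H9.Main
import Vale.Agent.P006.R1.Bridge

/-!
P006, R1: the strip inequality with constant `1` above height `1/3`: at most one of the points
`g w`, `g ∈ Γ(3)`, lies in the period parallelogram at height above `1/3`.
-/

namespace Vale.Agent.P006.H9

open Matrix Complex ENNReal Set MeasureTheory

/-- two points of the strip above height `1/3` that are equivalent under `Γ(3)` are equal -/
theorem eq_one_of_Ptop {γ : SpecialLinearGroup (Fin 2) O} (hγ : γ ∈ KU.Gamma3 O) {w : H3}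
    {v0 : ℝ} (hv0 : 1 / 3 ≤ v0) (h1 : w ∈ Ptop v0) (h2 : γ • w ∈ Ptop v0) : γ = 1 := by
  have hv : v0 < w.v := h1.2
  have hv2 : v0 < (γ • w).v := h2.2
  have hc : γ 1 0 = 0 := by
    by_contra hc
    have h3 : (3 : O) ∣ γ 1 0 := hγ.2.2.1
    obtain ⟨x, hx⟩ := h3
    have hx0 : x ≠ 0 := by rintro rfl; exact hc (by rw [hx, mul_zero])
    have h9 : (9 : ℝ) ≤ normSq (toC (γ 1 0)) := by
      rw [hx, toC_three_mul, normSq_mul, ← N_cast_real]
      have h3' : normSq (3 : ℂ) = 9 := by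
        rw [show (3 : ℂ) = ((3 : ℝ) : ℂ) by norm_num, normSq_ofReal]; norm_num
      rw [h3']
      have : (1 : ℝ) ≤ N x := by exact_mod_cast N_pos hx0
      linarith
    rw [v_smul] at hv2
    have hQ : 9 * w.v ≤ Q w (toC (γ 1 0)) (toC (γ 1 1)) := by
      rw [Q, den, le_div_iff₀ w.v_pos]
      have h4 := normSq_nonneg (toC (γ 1 0) * w.z + toC (γ 1 1))
      have h5 : 9 * w.v ^ 2 ≤ normSq (toC (γ 1 0)) * w.v ^ 2 :=
        mul_le_mul_of_nonneg_right h9 (sq_nonneg _)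
      nlinarith
    have hwv := w.v_pos
    have hQ0 : 0 < Q w (toC (γ 1 0)) (toC (γ 1 1)) := by linarith
    rw [lt_div_iff₀ hQ0] at hv2
    have h6 : (1 / 3) * (9 * (1 / 3)) ≤ v0 * Q w (toC (γ 1 0)) (toC (γ 1 1)) := by
      apply mul_le_mul hv0 _ (by norm_num) (by linarith)
      linarith
    linarith
  have hdet := KU.det_eq γ
  rw [hc, mul_zero, sub_zero] at hdet
  have hd : γ 1 1 = 1 :=
    Primary.eq_one hγ.2.2.2 (IsUnit.of_mul_eq_one (γ 0 0) (by rw [mul_comm]; exact hdet))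
  have ha : γ 0 0 = 1 := by rw [hd, mul_one] at hdet; exact hdet
  have e : γ = KU.tr (γ 0 1) := by
    apply KU.ext2 <;> simp [KU.tr, ha, hd, hc]
  have hT : γ ∈ T3 := ⟨γ 0 1, hγ.2.1, e⟩
  obtain ⟨g, -, hg⟩ := existsUnique_T3 w
  have e1 := hg ⟨γ, hT⟩ h2.1
  have e2 := hg 1 (by show (1 : T3) • w ∈ P3; rw [one_smul]; exact h1.1)
  have := congrArg Subtype.val (e1.trans e2.symm)
  simpa using this

/-- **strip inequality with constant `1`** above height `1/3` -/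
theorem strip_one {B : Subgroup (SpecialLinearGroup (Fin 2) O)} (hB : B ≤ KU.Gamma3 O)
    {F : H3 → ℝ≥0∞} (hF : Measurable F) (hFi : Inv B F) (σ : SpecialLinearGroup (Fin 2) O)
    {v0 : ℝ} (hv0 : 1 / 3 ≤ v0) :
    ∫⁻ w in Ptop v0, F (σ • w) ∂muH ≤ ∫⁻ w, F w ∂(qB B) := by
  set A := Ptop v0 with hA0
  have hA : MeasurableSet A := measurableSet_Ptop v0
  have hA' : MeasurableSet ((fun w => σ⁻¹ • w) ⁻¹' A) := measurable_const_smul σ⁻¹ hA
  have h1 : ∫⁻ w in A, F (σ • w) ∂muH = ∫⁻ w in (fun w => σ⁻¹ • w) ⁻¹' A, F w ∂muH := by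
    rw [← lintegral_indicator hA, ← lintegral_indicator hA',
      ← (measurePreserving_smul σ muH).lintegral_comp (hF.indicator hA')]
    refine lintegral_congr fun w => ?_
    by_cases hw : w ∈ A
    · rw [indicator_of_mem hw, indicator_of_mem (by simpa using hw)]
    · rw [indicator_of_notMem hw, indicator_of_notMem (by simpa using hw)]
  rw [h1, qB, lintegral_qm' muH isBase_baseK hF, ← one_mul (∫⁻ w, F w * kern B baseK w ∂muH)]
  refine covering_le muH hF hFi (isKernel_kern isBase_baseK B) hA' fun w => ?_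
  have key : ∀ S : Finset B, (∀ g ∈ S, g ∈ {g : B | σ⁻¹ • (g : SpecialLinearGroup (Fin 2) O) • w ∈ A})
      → (S.card : ℝ) ≤ 1 := by
    intro S hS
    have : S.card ≤ 1 := by
      rw [Finset.card_le_one]
      intro g hg h hh
      have e1 : σ⁻¹ • (g : SpecialLinearGroup (Fin 2) O) • w ∈ A := hS g hg
      have e2 : σ⁻¹ • (h : SpecialLinearGroup (Fin 2) O) • w ∈ A := hS h hh
      have e3 : (σ⁻¹ * ((h : SpecialLinearGroup (Fin 2) O) * (g : SpecialLinearGroup (Fin 2) O)⁻¹)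
          * σ) • (σ⁻¹ • (g : SpecialLinearGroup (Fin 2) O) • w)
          = σ⁻¹ • (h : SpecialLinearGroup (Fin 2) O) • w := by
        rw [← mul_smul, ← mul_smul, ← mul_smul]
        congr 1
        group
      have e4 : σ⁻¹ * ((h : SpecialLinearGroup (Fin 2) O) * (g : SpecialLinearGroup (Fin 2) O)⁻¹)
          * σ ∈ KU.Gamma3 O := by
        have := conj_mem_Gamma3 (Subgroup.mul_mem _ (hB h.2) (Subgroup.inv_mem _ (hB g.2))) σ⁻¹
        rwa [inv_inv] at this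
      have e5 := eq_one_of_Ptop e4 hv0 e1 (by rw [e3]; exact e2)
      have e6 : (h : SpecialLinearGroup (Fin 2) O) * (g : SpecialLinearGroup (Fin 2) O)⁻¹ = 1 := by
        have : σ * (σ⁻¹ * ((h : SpecialLinearGroup (Fin 2) O) *
            (g : SpecialLinearGroup (Fin 2) O)⁻¹) * σ) * σ⁻¹ = 1 := by rw [e5]; simp
        simpa [mul_assoc] using this
      exact Subtype.ext (mul_inv_eq_one.1 e6).symm
    exact_mod_cast this
  have h := tsum_indicator_le _ key
  rw [ENNReal.ofReal_one] at h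
  refine le_trans (le_of_eq ?_) h
  refine tsum_congr fun g => ?_
  by_cases hg : σ⁻¹ • (g : SpecialLinearGroup (Fin 2) O) • w ∈ A
  · rw [indicator_of_mem (by exact hg), indicator_of_mem (by exact hg)]; rfl
  · rw [indicator_of_notMem (by exact hg), indicator_of_notMem (by exact hg)]

/-- the same for automorphic functions -/
theorem strip_aut_one {η : O → O → ℂ} (hη : RowChar η) {q : O} {F : H3 → ℂ} (hF : Measurable F)
    (hFa : Aut (Gam q) (chiOf η) F) (σ : SpecialLinearGroup (Fin 2) O) {v0 : ℝ}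
    (hv0 : 1 / 3 ≤ v0) :
    ∫⁻ w in Ptop v0, ‖F (σ • w)‖ₑ ^ 2 ∂muH ≤ ∫⁻ w, ‖F w‖ₑ ^ 2 ∂(qB (Gam q)) :=
  strip_one (F := fun w => ‖F w‖ₑ ^ 2) (Gam_le_Gamma3 q) (hF.enorm.pow_const 2) (fun g hg w => by
    have := hFa.norm_inv (hη.isChar q) g hg w
    simp only [] at this ⊢
    rw [this]) σ hv0

section

variable {η : O → O → ℂ} (hη : RowChar η) {f : ℝ → ℂ} (hf : Measurable f)
  {A : ℝ} (hfd : Decay f A)

include hη hf hfd

/-- **(GN)** -/
theorem strip_E_one (σ : SpecialLinearGroup (Fin 2) O) {v0 : ℝ} (hv0 : 1 / 3 ≤ v0) :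
    ∫⁻ w in Ptop v0, ‖E 1 η f (σ • w)‖ₑ ^ 2 ∂muH ≤ ENNReal.ofReal
        (∫ w in P3, f (1 / w.v) * (starRingEnd ℂ) (E 1 η f w) ∂muH).re := by
  rw [← norm_E hη hf hfd 1]
  exact strip_aut_one hη (measurable_E 1 η hf) (E_aut hη 1 f) σ hv0

/-- **(GN)** for the difference at level `p` -/
theorem strip_Ediff_one {p : O} (hp : Prime p) (hp3 : IsCoprime (3 : O) p)
    (σ : SpecialLinearGroup (Fin 2) O) {v0 : ℝ} (hv0 : 1 / 3 ≤ v0) :
    ∫⁻ w in Ptop v0, ‖Ediff p η f (σ • w)‖ₑ ^ 2 ∂muH ≤ ENNReal.ofReal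
        (∫ w in P3, f (1 / w.v) * (starRingEnd ℂ) (Ediff p η f w) ∂muH).re := by
  rw [← norm_Ediff hη hf hfd hp hp3]
  exact strip_aut_one hη (measurable_Ediff hf p) (Ediff_aut hη p) σ hv0

/-- **(GN)** for `E(τ w) - E(w)` -/
theorem strip_E_smul_sub_one {τ : SpecialLinearGroup (Fin 2) O}
    (hτ : ∀ g ∈ KU.Gamma3 O, chiOf η (τ * g * τ⁻¹) = chiOf η g)
    (σ : SpecialLinearGroup (Fin 2) O) {v0 : ℝ} (hv0 : 1 / 3 ≤ v0) :
    ∫⁻ w in Ptop v0, ‖E 1 η f (τ • σ • w) - E 1 η f (σ • w)‖ₑ ^ 2 ∂muH ≤ ENNReal.ofReal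
        (2 * (∫ w in P3, f (1 / w.v) *
          (starRingEnd ℂ) (E 1 η f w - E 1 η f (τ • w)) ∂muH).re) := by
  rw [← norm_E_smul_sub hη hf hfd hτ]
  exact strip_aut_one hη (F := fun w => E 1 η f (τ • w) - E 1 η f w)
    (((measurable_E 1 η hf).comp (measurable_const_smul τ)).sub (measurable_E 1 η hf))
    ((E_smul_aut hη hτ).sub (E_aut hη 1 f)) σ hv0

end

end Vale.Agent.P006.H9
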