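import Vale.Agent.P006.R1.Rho
import Vale.Agent.P006.H2.Tail3
import Vale.Agent.P006.Main.Aut

/-!
P006, R1: `AutRho`, the relations between the residues, unconditionally.
-/

namespace Vale.Agent.P006.R1

open Vale.Agent.P006

theorem tailHyp : TailHyp := by
  intro W a b H n hn
  obtain ⟨C, hC0, h⟩ := FC.tail_Phi H hn
  refine ⟨C, hC0, fun K B Y hK hB hY ν hν => ?_⟩
  have := h 0 K B Y ν hK hB hY hν
  rw [JB.tw_zero, abs_zero, add_zero, one_pow, mul_one] at this
  exact this

/-- **R1**: the relations between the residues -/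
theorem autRho : AutRho := fun _ hF => rho3_of tailHyp hF

end Vale.Agent.P006.R1
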