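import Vale.Agent.P006.CR.GaussSumB
import Vale.Agent.P006.H357.Base
import Mathlib.Analysis.SpecialFunctions.Pow.Real
import Mathlib.Topology.Algebra.InfiniteSum.Basic
import Mathlib.Analysis.SpecialFunctions.Pow.Asymptotics

/-!
P006, block R1-A: local relations between the coefficients `θ ν` of the theta function, from the
asymptotics of `∑_d gt ν d w(N d / Y)` and the equidistribution `∑_{p ∣ d} ≈ 1/(N p + 1) ∑_d`.
-/

namespace Vale.Agent.P006.R1

open Filter Topology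

/-- the `d`-th term -/
noncomputable def T (w : ℝ → ℂ) (ν : O) (Y : ℝ) (d : O) : ℂ :=
  if Primary d then gt ν d * w (N d / Y) else 0

/-- `∑_{d primary} gt ν d * w (N d / Y)` -/
noncomputable def S (w : ℝ → ℂ) (ν : O) (Y : ℝ) : ℂ := ∑' d : O, T w ν Y d

/-- the part `p ∣ d` -/
noncomputable def D (w : ℝ → ℂ) (p ν : O) (Y : ℝ) : ℂ := ∑' d : O, if p ∣ d then T w ν Y d else 0

/-- the part `p ∤ d` -/
noncomputable def U (w : ℝ → ℂ) (p ν : O) (Y : ℝ) : ℂ := ∑' d : O, if p ∣ d then 0 else T w ν Y d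

/-- bounded support -/
def BddSupp (w : ℝ → ℂ) : Prop := ∃ b : ℝ, ∀ x, b < x → w x = 0

theorem finite_support {w : ℝ → ℂ} (hw : BddSupp w) (ν : O) {Y : ℝ} (hY : 0 < Y) :
    (Function.support (T w ν Y)).Finite := by
  obtain ⟨b, hb⟩ := hw
  refine (HB.finite_N_le (b * Y)).subset fun d hd => ?_
  by_contra hcon
  apply hd
  have h1 : b < N d / Y := by
    rw [lt_div_iff₀ hY]
    exact not_le.1 hcon
  rw [T, hb _ h1]; simp

theorem S_eq_D_add_U {w : ℝ → ℂ} (hw : BddSupp w) (p ν : O) {Y : ℝ} (hY : 0 < Y) :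
    S w ν Y = D w p ν Y + U w p ν Y := by
  have hfin := finite_support hw ν hY
  have h1 : Summable fun d : O => if p ∣ d then T w ν Y d else 0 := by
    apply summable_of_hasFiniteSupport
    refine hfin.subset fun d hd => ?_
    simp only [Function.mem_support, ne_eq, ite_eq_right_iff, Classical.not_imp] at hd ⊢
    exact hd.2
  have h2 : Summable fun d : O => if p ∣ d then 0 else T w ν Y d := by
    apply summable_of_hasFiniteSupport
    refine hfin.subset fun d hd => ?_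
    simp only [Function.mem_support, ne_eq, ite_eq_left_iff, Classical.not_imp] at hd ⊢
    exact hd.2
  rw [S, D, U, ← h1.tsum_add h2]
  refine tsum_congr fun d => ?_
  by_cases h : p ∣ d <;> simp [h]

/-- reindexing of a sum over multiples -/
theorem tsum_mul_left_eq {F : O → ℂ} {a : O} (ha : a ≠ 0) (hF : ∀ d, ¬ a ∣ d → F d = 0) :
    ∑' d, F d = ∑' d, F (a * d) := by
  have hinj : Function.Injective (fun d : O => a * d) := mul_right_injective₀ ha
  refine (hinj.tsum_eq fun d hd => ?_).symm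
  by_contra hcon
  apply hd
  apply hF
  rintro ⟨c, rfl⟩
  exact hcon ⟨c, rfl⟩

section rel

variable {w : ℝ → ℂ} {p : O} (hp : Prime p) (hpp : Primary p)

theorem primary_mul_iff {a b : O} (ha : Primary a) : Primary (a * b) ↔ Primary b :=
  ⟨fun h => Primary.of_mul ha h, fun h => ha.mul h⟩

theorem gt_mul_coprime (ν : O) {a d : O} (ha : Primary a) (hd : Primary d) (h : IsCoprime a d) :
    gt ν (a * d) = gt ν a * gt (a * ν) d := by
  rw [gt_mul_primary ν ha hd h, gt, gt, gt, gs_twist ν hd.ne_zero h]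
  ring

include hp in
theorem coprime_of_not_dvd {k : ℕ} {d : O} (h : ¬ p ∣ d) : IsCoprime (p ^ k) d :=
  ((hp.coprime_iff_not_dvd).2 h).pow_left

include hp hpp in
/-- (I1) -/
theorem D_eq_one {ν : O} (hν : ¬ p ∣ ν) (Y : ℝ) :
    D w p ν Y = gt ν p * U w p (p * ν) (Y / N p) := by
  have hl := hpp.not_lam_dvd
  rw [D, tsum_mul_left_eq hpp.ne_zero (fun d hd => by simp [hd]), U, ← tsum_mul_left]
  refine tsum_congr fun d => ?_
  rw [if_pos (dvd_mul_right p d), T, T]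
  by_cases hd : Primary d
  · rw [if_pos ((primary_mul_iff hpp).2 hd), if_pos hd]
    by_cases hpd : p ∣ d
    · rw [if_pos hpd]
      obtain ⟨c, rfl⟩ := hpd
      have : gs ν (p * (p * c)) = 0 := by
        have e : p * (p * c) = p ^ 2 * c := by ring
        rw [e]
        refine gs_eq_zero_of_sq_dvd hp hl ?_ hν
        rintro rfl
        exact hd.ne_zero (by simp)
      rw [gt, this]; simp
    · rw [if_neg hpd, gt_mul_coprime ν hpp hd ((hp.coprime_iff_not_dvd).2 hpd), N_mul]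
      have hN : (N p : ℝ) ≠ 0 := by exact_mod_cast (N_pos hpp.ne_zero).ne'
      have e : ((N p * N d : ℕ) : ℝ) / Y = N d / (Y / N p) := by
        push_cast
        by_cases hY : Y = 0
        · subst hY; simp
        · field_simp
      rw [e]; ring
  · rw [if_neg (fun h => hd ((primary_mul_iff hpp).1 h)), if_neg hd]; simp

include hp in
/-- (I3) -/
theorem U_cube (m : O) (Y : ℝ) : U w p (p ^ 3 * m) Y = U w p m Y := by
  rw [U, U]
  refine tsum_congr fun d => ?_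
  by_cases hpd : p ∣ d
  · rw [if_pos hpd, if_pos hpd]
  · rw [if_neg hpd, if_neg hpd, T, T]
    by_cases hd : Primary d
    · rw [if_pos hd, if_pos hd, gt, gt, gs_cube_mul m hd.ne_zero ((hp.coprime_iff_not_dvd).2 hpd)]
    · rw [if_neg hd, if_neg hd]

include hp hpp in
/-- (I2) -/
theorem D_eq_two {m : O} (hm : ¬ p ∣ m) (Y : ℝ) :
    D w p (p ^ 2 * m) Y = -((Real.sqrt (N p) : ℝ) : ℂ) * U w p (p ^ 2 * m) (Y / (N p) ^ 3) := by
  have hl := hpp.not_lam_dvd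
  have hp0 := hpp.ne_zero
  have hNpos : (0 : ℝ) < N p := by exact_mod_cast N_pos hp0
  -- the terms with `v_p(d) ≠ 3` vanish
  have hvan : ∀ d : O, ¬ (p ^ 3 ∣ d ∧ ¬ p ^ 4 ∣ d) → p ∣ d → Primary d → gs (p ^ 2 * m) d = 0 := by
    intro d hd hpd hprim
    have hd0 := hprim.ne_zero
    obtain ⟨k, b, hkb, hb⟩ := CRB.exists_pow_mul hd0 hp
    have hb0 : b ≠ 0 := by rintro rfl; exact hb (dvd_zero p)
    have hbp : Primary b := by
      rw [hkb] at hprim
      exact Primary.of_mul (hpp.pow k) hprim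
    have hk1 : 1 ≤ k := by
      by_contra h
      have : k = 0 := by omega
      subst this
      rw [pow_zero, one_mul] at hkb
      exact hb (hkb ▸ hpd)
    by_cases hk4 : 4 ≤ k
    · refine CRB.gs_eq_zero_of_dvd hd0 hl (j := 2) ?_ ?_
      · rw [hkb]; exact (pow_dvd_pow p hk4).mul_right b
      · intro h
        apply hm
        have : p ^ 2 * p ∣ p ^ 2 * m := by rw [← pow_succ]; exact h
        exact (mul_dvd_mul_iff_left (pow_ne_zero 2 hp0)).1 this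
    · have hk3 : k ≠ 3 := by
        rintro rfl
        apply hd
        refine ⟨⟨b, hkb⟩, fun h => hb ?_⟩
        rw [hkb, pow_succ] at h
        exact (mul_dvd_mul_iff_left (pow_ne_zero 3 hp0)).1 h
      have hk : k = 1 ∨ k = 2 := by omega
      have hcop : IsCoprime (p ^ k) b := coprime_of_not_dvd hp hb
      have h0 : gs (p ^ 2 * m) (p ^ k) = 0 := by
        rcases hk with rfl | rfl
        · rw [pow_one]
          exact gs_prime_of_dvd hp hl (Dvd.dvd.mul_right (dvd_pow_self p two_ne_zero) m)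
        · rw [gs_congr (μ' := 0) (by simp)]
          refine CRB.gs_zero_eq_zero (hpp.pow 2) ?_
          rintro ⟨r, _, hr⟩
          have hpr : p ∣ r := hp.dvd_of_dvd_pow (n := 3) (by rw [← hr]; exact dvd_pow_self p two_ne_zero)
          obtain ⟨s, rfl⟩ := hpr
          have h5 : p ^ 2 * 1 = p ^ 2 * (p * s ^ 3) := by linear_combination hr
          have h6 := mul_left_cancel₀ (pow_ne_zero 2 hp0) h5
          exact hp.not_isUnit (IsUnit.of_mul_eq_one _ h6.symm)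
      rw [hkb, gs_mul_primary _ (hpp.pow k) hbp hcop, h0]; ring
  have h3 : (p ^ 3 : O) ≠ 0 := pow_ne_zero 3 hp0
  rw [D]
  have hF : ∀ d : O, ¬ p ^ 3 ∣ d → (if p ∣ d then T w (p ^ 2 * m) Y d else 0) = 0 := by
    intro d hd
    by_cases hpd : p ∣ d
    · rw [if_pos hpd, T]
      by_cases hprim : Primary d
      · rw [if_pos hprim, gt, hvan d (fun h => hd h.1) hpd hprim]; simp
      · rw [if_neg hprim]
    · rw [if_neg hpd]
  rw [tsum_mul_left_eq h3 hF, U, ← tsum_mul_left]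
  refine tsum_congr fun d => ?_
  have hdvd : p ∣ p ^ 3 * d := (dvd_pow_self p three_ne_zero).mul_right d
  rw [if_pos hdvd, T, T]
  have hp3 : Primary (p ^ 3) := hpp.pow 3
  by_cases hd : Primary d
  · rw [if_pos ((primary_mul_iff hp3).2 hd), if_pos hd]
    by_cases hpd : p ∣ d
    · rw [if_pos hpd]
      have : gs (p ^ 2 * m) (p ^ 3 * d) = 0 := by
        refine hvan _ ?_ hdvd ((primary_mul_iff hp3).2 hd)
        rintro ⟨-, h⟩
        exact h (by rw [pow_succ]; exact mul_dvd_mul_left _ hpd)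
      rw [gt, this]; simp
    · rw [if_neg hpd]
      have hcop : IsCoprime (p ^ 3) d := coprime_of_not_dvd hp hpd
      rw [gt_mul_coprime _ hp3 hd hcop]
      have e1 : gt (p ^ 3 * (p ^ 2 * m)) d = gt (p ^ 2 * m) d := by
        rw [gt, gt, gs_cube_mul _ hd.ne_zero ((hp.coprime_iff_not_dvd).2 hpd)]
      have e2 : gt (p ^ 2 * m) (p ^ 3) = -((Real.sqrt (N p) : ℝ) : ℂ) := by
        have h4 := CRB.gs_prime_pow_two hp hl hm (j := 2) rfl
        rw [gt, h4, N_pow]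
        have e3 : Real.sqrt ((N p ^ 3 : ℕ) : ℝ) = N p * Real.sqrt (N p) := by
          push_cast
          have : ((N p : ℝ)) ^ 3 = (N p : ℝ) ^ 2 * N p := by ring
          rw [this, Real.sqrt_mul (by positivity), Real.sqrt_sq hNpos.le]
        rw [e3]
        have h5 : (0 : ℝ) < Real.sqrt (N p) := Real.sqrt_pos.2 hNpos
        have h6 : ((Real.sqrt (N p) : ℝ) : ℂ) ≠ 0 := by exact_mod_cast h5.ne'
        have h7 : ((N p : ℕ) : ℂ) ≠ 0 := by exact_mod_cast hNpos.ne'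
        have h8 : ((Real.sqrt (N p) : ℝ) : ℂ) * ((Real.sqrt (N p) : ℝ) : ℂ) = N p := by
          rw [← Complex.ofReal_mul, Real.mul_self_sqrt hNpos.le]; simp
        push_cast
        rw [div_eq_iff (mul_ne_zero h7 h6)]
        linear_combination (N p : ℂ) * h8
      rw [e1, e2, N_mul, N_pow]
      have e : ((N p ^ 3 * N d : ℕ) : ℝ) / Y = N d / (Y / (N p) ^ 3) := by
        push_cast
        by_cases hY : Y = 0
        · subst hY; simp
        · field_simp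
      rw [e]; ring
  · rw [if_neg (fun h => hd ((primary_mul_iff hp3).1 h)), if_neg hd]; simp

end rel

/-! ### limits -/

/-- rescaling of an asymptotic relation -/
theorem tendsto_scale {F : ℝ → ℂ} {L : ℂ} {a : ℝ}
    (h : Tendsto (fun Y : ℝ => F Y / ((Y ^ a : ℝ) : ℂ)) atTop (𝓝 L)) {c : ℝ} (hc : 0 < c) :
    Tendsto (fun Y : ℝ => F (Y / c) / ((Y ^ a : ℝ) : ℂ)) atTop (𝓝 (L * ((c ^ (-a) : ℝ) : ℂ))) := by
  have h1 : Tendsto (fun Y : ℝ => Y / c) atTop atTop := tendsto_id.atTop_div_const hc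
  have h2 := (h.comp h1).mul_const (((c ^ (-a) : ℝ) : ℂ))
  refine h2.congr' ?_
  filter_upwards [eventually_gt_atTop 0] with Y hY
  simp only [Function.comp]
  have hYa : (0 : ℝ) < Y ^ a := Real.rpow_pos_of_pos hY a
  have hca : (0 : ℝ) < c ^ a := Real.rpow_pos_of_pos hc a
  have e1 : ((Y / c) ^ a : ℝ) = Y ^ a / c ^ a := Real.div_rpow hY.le hc.le a
  have e2 : (c ^ (-a) : ℝ) = (c ^ a)⁻¹ := Real.rpow_neg hc.le a
  rw [e1, e2]
  have h3 : ((Y ^ a : ℝ) : ℂ) ≠ 0 := by exact_mod_cast hYa.ne'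
  have h4 : ((c ^ a : ℝ) : ℂ) ≠ 0 := by exact_mod_cast hca.ne'
  push_cast
  field_simp

section final

variable {w : ℝ → ℂ} (hw : BddSupp w) {p : O} (hp : Prime p) (hpp : Primary p)
  {θ : O → ℂ} {W : ℂ} (hW : W ≠ 0)
  (hS : ∀ ν : O, ν ≠ 0 → Tendsto (fun Y : ℝ => S w ν Y / ((Y ^ (5 / 6 : ℝ) : ℝ) : ℂ)) atTop
    (𝓝 (θ ν * W)))
  (hD : ∀ ν : O, ν ≠ 0 → Tendsto (fun Y : ℝ => (D w p ν Y - ((N p + 1 : ℕ) : ℂ)⁻¹ * S w ν Y) /
    ((Y ^ (5 / 6 : ℝ) : ℝ) : ℂ)) atTop (𝓝 0))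

include hS hD in
theorem tendsto_D {ν : O} (hν : ν ≠ 0) :
    Tendsto (fun Y : ℝ => D w p ν Y / ((Y ^ (5 / 6 : ℝ) : ℝ) : ℂ)) atTop
      (𝓝 (((N p + 1 : ℕ) : ℂ)⁻¹ * (θ ν * W))) := by
  have h1 := (hD ν hν).add ((hS ν hν).const_mul (((N p + 1 : ℕ) : ℂ)⁻¹))
  rw [zero_add] at h1
  refine h1.congr fun Y => ?_
  ring

include hw hS hD in
theorem tendsto_U {ν : O} (hν : ν ≠ 0) :
    Tendsto (fun Y : ℝ => U w p ν Y / ((Y ^ (5 / 6 : ℝ) : ℝ) : ℂ)) atTop
      (𝓝 ((N p : ℂ) * (((N p + 1 : ℕ) : ℂ)⁻¹ * (θ ν * W)))) := by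
  have h1 := (hS ν hν).sub (tendsto_D hS hD hν)
  have hn : ((N p + 1 : ℕ) : ℂ) ≠ 0 := by exact_mod_cast Nat.succ_ne_zero (N p)
  have e : θ ν * W - ((N p + 1 : ℕ) : ℂ)⁻¹ * (θ ν * W)
      = (N p : ℂ) * (((N p + 1 : ℕ) : ℂ)⁻¹ * (θ ν * W)) := by
    field_simp
    push_cast
    ring
  rw [e] at h1
  refine h1.congr' ?_
  filter_upwards [eventually_gt_atTop 0] with Y hY
  rw [S_eq_D_add_U hw p ν hY]
  ring

include hw hp hpp hW hS hD in
/-- `θ (p^3 m) = θ m` -/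
theorem theta_cube {m : O} (hm : m ≠ 0) : θ (p ^ 3 * m) = θ m := by
  have hp0 := hpp.ne_zero
  have h1 := tendsto_U hw hS hD (ν := p ^ 3 * m) (mul_ne_zero (pow_ne_zero 3 hp0) hm)
  have h2 := tendsto_U hw hS hD hm
  simp only [U_cube hp] at h1
  have h3 := tendsto_nhds_unique h1 h2
  have hn : ((N p + 1 : ℕ) : ℂ)⁻¹ ≠ 0 := inv_ne_zero (by exact_mod_cast Nat.succ_ne_zero (N p))
  have hN : (N p : ℂ) ≠ 0 := by exact_mod_cast (N_pos hp0).ne'
  have h4 := mul_left_cancel₀ hN h3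
  have h5 := mul_left_cancel₀ hn h4
  exact mul_right_cancel₀ hW h5

include hw hp hpp hW hS hD in
/-- `θ (p^2 m) = 0` for `p ∤ m` -/
theorem theta_sq {m : O} (hpm : ¬ p ∣ m) : θ (p ^ 2 * m) = 0 := by
  have hp0 := hpp.ne_zero
  have hm : m ≠ 0 := by rintro rfl; exact hpm (dvd_zero p)
  have hν : p ^ 2 * m ≠ 0 := mul_ne_zero (pow_ne_zero 2 hp0) hm
  have hNpos : (0 : ℝ) < N p := by exact_mod_cast N_pos hp0
  have h1 := tendsto_D hS hD hν
  have h2 := (tendsto_scale (tendsto_U hw hS hD hν)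
    (pow_pos hNpos 3)).const_mul (-((Real.sqrt (N p) : ℝ) : ℂ))
  have h3 : Tendsto (fun Y : ℝ => D w p (p ^ 2 * m) Y / ((Y ^ (5 / 6 : ℝ) : ℝ) : ℂ)) atTop
      (𝓝 (-((Real.sqrt (N p) : ℝ) : ℂ) * ((N p : ℂ) * (((N p + 1 : ℕ) : ℂ)⁻¹ *
        (θ (p ^ 2 * m) * W)) * (((((N p : ℝ)) ^ 3) ^ (-(5 / 6 : ℝ)) : ℝ) : ℂ)))) := by
    refine h2.congr fun Y => ?_
    rw [D_eq_two hp hpp hpm]; ring
  have h4 := tendsto_nhds_unique h1 h3
  have hn : ((N p + 1 : ℕ) : ℂ)⁻¹ ≠ 0 := inv_ne_zero (by exact_mod_cast Nat.succ_ne_zero (N p))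
  have e1 : ((N p : ℝ) ^ 3) ^ (-(5 / 6 : ℝ)) = (N p : ℝ) ^ (-(5 / 2 : ℝ)) := by
    rw [← Real.rpow_natCast, ← Real.rpow_mul hNpos.le]; norm_num
  have e2 : Real.sqrt (N p) * ((N p : ℝ) * (N p : ℝ) ^ (-(5 / 2 : ℝ))) = ((N p : ℝ))⁻¹ := by
    rw [Real.sqrt_eq_rpow, ← Real.rpow_one_add' hNpos.le (by norm_num), ← Real.rpow_add hNpos,
      ← Real.rpow_neg_one]
    norm_num
  rw [e1] at h4
  have h5 : θ (p ^ 2 * m) * W = -(((N p : ℝ)⁻¹ : ℝ) : ℂ) * (θ (p ^ 2 * m) * W) := by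
    apply mul_left_cancel₀ hn
    rw [h4, ← e2]
    push_cast
    ring
  have h6 : (1 + (((N p : ℝ)⁻¹ : ℝ) : ℂ)) * (θ (p ^ 2 * m) * W) = 0 := by
    linear_combination h5
  have h7 : (1 + (((N p : ℝ)⁻¹ : ℝ) : ℂ)) ≠ 0 := by
    have : (0 : ℝ) < 1 + (N p : ℝ)⁻¹ := by positivity
    exact_mod_cast this.ne'
  rcases mul_eq_zero.1 ((mul_eq_zero.1 h6).resolve_left h7) with h8 | h8
  · exact h8
  · exact absurd h8 hW

include hw hp hpp hW hS hD in
/-- `θ (p m) = N(p)^{-1/6} conj (gt m p) θ m` for `p ∤ m` -/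
theorem theta_mul {m : O} (hpm : ¬ p ∣ m) :
    θ (p * m) = (((N p : ℝ) ^ (-(1 / 6 : ℝ)) : ℝ) : ℂ) * (starRingEnd ℂ) (gt m p) * θ m := by
  have hp0 := hpp.ne_zero
  have hm : m ≠ 0 := by rintro rfl; exact hpm (dvd_zero p)
  have hν : p * m ≠ 0 := mul_ne_zero hp0 hm
  have hNpos : (0 : ℝ) < N p := by exact_mod_cast N_pos hp0
  have h1 := tendsto_D hS hD hm
  have h2 := (tendsto_scale (tendsto_U hw hS hD hν) hNpos).const_mul (gt m p)
  have h3 : Tendsto (fun Y : ℝ => D w p m Y / ((Y ^ (5 / 6 : ℝ) : ℝ) : ℂ)) atTop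
      (𝓝 (gt m p * ((N p : ℂ) * (((N p + 1 : ℕ) : ℂ)⁻¹ * (θ (p * m) * W)) *
        ((((N p : ℝ)) ^ (-(5 / 6 : ℝ)) : ℝ) : ℂ)))) := by
    refine h2.congr fun Y => ?_
    rw [D_eq_one hp hpp hpm]; ring
  have h4 := tendsto_nhds_unique h1 h3
  have hn : ((N p + 1 : ℕ) : ℂ)⁻¹ ≠ 0 := inv_ne_zero (by exact_mod_cast Nat.succ_ne_zero (N p))
  have e1 : (N p : ℝ) * (N p : ℝ) ^ (-(5 / 6 : ℝ)) = (N p : ℝ) ^ (1 / 6 : ℝ) := by
    rw [← Real.rpow_one_add' hNpos.le (by norm_num)]; norm_num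
  have h5 : θ m = gt m p * (((N p : ℝ) ^ (1 / 6 : ℝ) : ℝ) : ℂ) * θ (p * m) := by
    apply mul_right_cancel₀ hW
    apply mul_left_cancel₀ hn
    rw [h4, ← e1]
    push_cast
    ring
  have hg : (starRingEnd ℂ) (gt m p) * gt m p = 1 := by
    have h6 : ‖gt m p‖ = 1 := norm_gt hpp hp.squarefree
      ((hp.coprime_iff_not_dvd).2 hpm).symm
    rw [Complex.conj_mul', h6]; simp
  have e2 : (N p : ℝ) ^ (-(1 / 6 : ℝ)) * (N p : ℝ) ^ (1 / 6 : ℝ) = 1 := by
    rw [← Real.rpow_add hNpos]; norm_num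
  have e3 : (((N p : ℝ) ^ (-(1 / 6 : ℝ)) : ℝ) : ℂ) * (((N p : ℝ) ^ (1 / 6 : ℝ) : ℝ) : ℂ) = 1 := by
    rw [← Complex.ofReal_mul, e2]; simp
  rw [h5]
  calc θ (p * m) = (((N p : ℝ) ^ (-(1 / 6 : ℝ)) : ℝ) : ℂ) * (((N p : ℝ) ^ (1 / 6 : ℝ) : ℝ) : ℂ) *
        ((starRingEnd ℂ) (gt m p) * gt m p) * θ (p * m) := by rw [e3, hg]; ring
    _ = _ := by ring

end final

end Vale.Agent.P006.R1
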