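import Vale.Agent.P006.H2.Ineq
import Vale.Agent.P006.R1.Bridge

/-!
P006, R1: Fourier coefficients and the basic inequality for the weighted series
`FSa a f = ∑ a(d) (3m/d) f(...)`, `|a| ≤ 1`.
-/

open MeasureTheory Set Filter
open scoped Topology

namespace Vale.Agent.P006.R1

open Vale.Agent.P006 Vale.Agent.P006.FC

variable {a : O → ℂ} (ha : ∀ d, ‖a d‖ ≤ 1)

section

variable {κ : Measure ℝ} [SFinite κ] {f : ℝ → ℂ}
  (hf : ∀ d : PD, Integrable (fd f (N (d : O))) (mH κ))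
  (hs : Summable fun d : PD => (N (d : O) : ℝ) * ∫ p, ‖fd f (N (d : O)) p‖ ∂(mH κ))

/-- the weighted family of integrands -/
noncomputable def fama (a : O → ℂ) (f : ℝ → ℂ) (ν : O) (i : PD × O) (p : ℂ × ℝ) : ℂ :=
  a i.1 * fam f (fun _ => 1) ν i p

include hf in
theorem integrable_fama (a : O → ℂ) (ν : O) (i : PD × O) : Integrable (fama a f ν i) (mB κ) :=
  (integrable_fam hf (h := fun _ => 1) measurable_const (C := 1) (fun _ => by simp) ν i).const_mul _

include ha hf hs in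
theorem summable_fama (ν : O) : Summable fun i : PD × O => ∫ p, ‖fama a f ν i p‖ ∂(mB κ) := by
  have h := summable_fam hf hs (h := fun _ => 1) measurable_const (C := 1) (fun _ => by simp) ν
  refine Summable.of_nonneg_of_le (fun i => integral_nonneg fun p => norm_nonneg _) (fun i => ?_) h
  have e : (fun p => ‖fama a f ν i p‖) = fun p => ‖a i.1‖ * ‖fam f (fun _ => 1) ν i p‖ := by
    funext p; rw [fama, norm_mul]
  rw [e, integral_const_mul]
  exact mul_le_of_le_one_left (integral_nonneg fun p => norm_nonneg _) (ha _)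

theorem fama_eq (a : O → ℂ) (f : ℝ → ℂ) (ν : O) (i : PD × O) (p : ℂ × ℝ) :
    fama a f ν i p = (a i.1 * term f i.1 i.2 p) * En ν p.1 := by
  rw [fama, fam]; ring

include ha hf hs in
/-- UNFOLDING: the Fourier coefficient of the weighted series -/
theorem hasSum_coeff_a (ν : O) :
    HasSum (fun d : PD => a d * (FC.gs ν d * ∫ p, fd f (N (d : O)) p * En ν p.1 ∂(mH κ)))
      (∫ p, FSa a f p * En ν p.1 ∂(mB κ)) := by
  have h1 := hasSum_integral_of_summable_integral_norm (integrable_fama hf a ν)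
    (summable_fama ha hf hs ν)
  have h2 : (∫ p, ∑' i, fama a f ν i p ∂(mB κ)) = ∫ p, FSa a f p * En ν p.1 ∂(mB κ) := by
    refine integral_congr_ae (Filter.Eventually.of_forall fun p => ?_)
    simp only [fama_eq, FSa]
    rw [tsum_mul_right]
  rw [h2] at h1
  have h3 : ∀ d : PD, HasSum (fun m : O => ∫ p, fama a f ν (d, m) p ∂(mB κ))
      (a d * (FC.gs ν d * ∫ p, fd f (N (d : O)) p * En ν p.1 ∂(mH κ))) := by
    intro d
    have h4 := hasSum_periodic d.2.ne_zero (b := cf ν d) (cf_periodic d.2.ne_zero)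
      (integrable_Psi (hf d) (h := fun _ => 1) measurable_const (C := 1) (fun _ => by simp) ν)
    rw [sum_cf d.2] at h4
    have h5 := h4.mul_left (a d)
    have e : (fun m : O => a d * ∫ p, cf ν d m * Psi f (fun _ => 1) ν (N (d : O))
        (p.1 - 3 * toC m / toC d, p.2) ∂(mB κ)) = fun m : O => ∫ p, fama a f ν (d, m) p ∂(mB κ) := by
      funext m
      rw [← integral_const_mul]
      congr 1; funext p
      rw [fama, fam, ← term_eq]
    rw [e] at h5
    have e2 : ∫ p, Psi f (fun _ => 1) ν (N (d : O)) p ∂(mH κ)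
        = ∫ p, fd f (N (d : O)) p * En ν p.1 ∂(mH κ) := by
      congr 1; funext p
      rw [Psi, one_mul]
    rw [e2] at h5
    exact h5
  exact h1.prod_fiberwise h3

include ha hf hs in
theorem integrable_FSa : Integrable (FSa a f) (mB κ) := by
  have h1 := integrable_tsum_of_norm (integrable_fama hf a 0) (summable_fama ha hf hs 0)
  refine h1.congr (Filter.Eventually.of_forall fun p => ?_)
  simp only [fama_eq, FSa]
  congr 1; funext i
  simp [En]

end

variable {f : ℝ → ℂ} (hf : CLf f)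

include ha hf

theorem hasSum_coeff_a' {I : Set ℝ} (hI0 : I ⊆ Ioi 0) (ν : O) :
    HasSum (fun d : PD => a d * (FC.gs ν d * ∫ p, fd f (N (d : O)) p * En ν p.1 ∂(mH (km I))))
      (∫ p, FSa a f p * En ν p.1 ∂(mB (km I))) :=
  hasSum_coeff_a ha (fun d => integrable_fd' hf hI0 d) (summable_fd hf hI0) ν

theorem integrable_FSa' : Integrable (FSa a f) (mB (km (Ioi 0))) :=
  integrable_FSa ha (fun d => integrable_fd' hf (le_refl _) d) (summable_fd hf (le_refl _))

theorem norm_tail_le_a {Y : ℝ} (hY : 0 ≤ Y) (ν : O) :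
    ‖∫ p, FSa a f p * En ν p.1 ∂(mB (km (Ioi Y)))‖ ≤ tail f Y ν := by
  have hb : ∀ d : PD, ‖a d * (FC.gs ν d * ∫ p, fd f (N (d : O)) p * En ν p.1 ∂(mH (km (Ioi Y))))‖
      ≤ (N (d : O) : ℝ) * ‖∫ p, fd f (N (d : O)) p * En ν p.1 ∂(mH (km (Ioi Y)))‖ := by
    intro d
    rw [norm_mul, norm_mul]
    calc ‖a d‖ * (‖FC.gs ν d‖ * ‖∫ p, fd f (N (d : O)) p * En ν p.1 ∂(mH (km (Ioi Y)))‖)
        ≤ 1 * (‖FC.gs ν d‖ * ‖∫ p, fd f (N (d : O)) p * En ν p.1 ∂(mH (km (Ioi Y)))‖) := by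
          gcongr; exact ha _
      _ ≤ _ := by
          rw [one_mul]
          exact mul_le_mul_of_nonneg_right (FC.norm_gs_le ν d) (norm_nonneg _)
  rw [← (hasSum_coeff_a' ha hf (Ioi_subset_Ioi hY) ν).tsum_eq, tail]
  refine (norm_tsum_le_tsum_norm ?_).trans ?_
  · exact Summable.of_nonneg_of_le (fun d => norm_nonneg _) hb (summable_tail hf hY ν)
  · exact Summable.tsum_le_tsum hb
      (Summable.of_nonneg_of_le (fun d => norm_nonneg _) hb (summable_tail hf hY ν))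
      (summable_tail hf hY ν)

/-- **basic inequality** for the weighted series -/
theorem basic_ineq_a {A : ℝ} (hA : 0 ≤ A)
    (hb : ∀ x : ℝ, 0 < x → ∫⁻ p, ‖FSa a f p‖ₑ ^ 2 ∂(mB (km (Ioc x (2 * x)))) ≤
      ENNReal.ofReal (A * (x ^ 3 + x))) {Y : ℝ} (hY : 0 < Y) (ν : O) :
    ‖∫ p, FSa a f p * En ν p.1 ∂(mB (km (Ioi 0)))‖ ^ 2 ≤
      2 * (volume.real B * A * (Y ^ 4 + Y ^ 2)) + 2 * tail f Y ν ^ 2 := by
  have hF := integrable_FSa' ha hf
  have h1 := strip_sum hF hA hb hY {ν}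
  rw [Finset.sum_singleton] at h1
  rw [split_heights hF hY ν]
  have h2 := norm_tail_le_a ha hf hY.le ν
  have h3 := norm_add_le (∫ p, FSa a f p * En ν p.1 ∂(mB (km (Ioc 0 Y))))
    (∫ p, FSa a f p * En ν p.1 ∂(mB (km (Ioi Y))))
  have h4 := norm_nonneg (∫ p, FSa a f p * En ν p.1 ∂(mB (km (Ioi Y))))
  have h5 := norm_nonneg (∫ p, FSa a f p * En ν p.1 ∂(mB (km (Ioc 0 Y))))
  set x := ‖∫ p, FSa a f p * En ν p.1 ∂(mB (km (Ioc 0 Y)))‖
  set y := ‖∫ p, FSa a f p * En ν p.1 ∂(mB (km (Ioi Y)))‖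
  set w := ‖∫ p, FSa a f p * En ν p.1 ∂(mB (km (Ioc 0 Y))) +
    ∫ p, FSa a f p * En ν p.1 ∂(mB (km (Ioi Y)))‖ with hw
  have h6 : 0 ≤ w := norm_nonneg _
  nlinarith [sq_nonneg (x - tail f Y ν)]

end Vale.Agent.P006.R1
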