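import Vale.Agent.P006.R1.Coeff
import Vale.Agent.P006.R1.Algebra
import Vale.Agent.P006.GRAM.Final
import Vale.Agent.P006.JB.HS
import Vale.Agent.P006.V2.GenOut
import Vale.Agent.P006.KER.FCFix
import Vale.Agent.P006.KER.Decay

/-!
P006, R1: the relations between the residues `θ`.
-/

open MeasureTheory Set Filter
open scoped Topology ENNReal

namespace Vale.Agent.P006.R1

open Vale.Agent.P006 Vale.Agent.P006.FC
open Vale.Agent.P006.KER (Nice Phi tw hlf R3 hmeas chr)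
open Vale.Agent.P006.H9 (Decay P3 muH Ediff)

/-- the tail bound (block FC, K6) -/
def TailHyp : Prop :=
  ∀ (W : ℝ → ℂ) (a b : ℝ), Nice W a b → ∀ n : ℕ, 0 < n → ∃ C : ℝ, 0 ≤ C ∧ ∀ K B Y : ℝ, 0 < K → 0 < B →
    0 < Y → ∀ ν : O, ν ≠ 0 → tail (Phi W K B) Y ν ≤ C * B ^ 3 * ((kf ν * Y) ^ n)⁻¹

variable {W : ℝ → ℂ} {a b : ℝ}

theorem measurable_Phi' (H : Nice W a b) (K B : ℝ) : Measurable (Phi W K B) :=
  (KER.continuous_Phi H K B).measurable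

theorem clf_Phi (H : Nice W a b) {K B : ℝ} (hK : 0 < K) (hB : 0 < B) : CLf (Phi W K B) := by
  refine ⟨measurable_Phi' H K B, ?_⟩
  obtain ⟨C, hC0, h⟩ := KER.Phi_rapid H hK hB 4
  refine ⟨C, hC0, fun x hx => ?_⟩
  have := h x
  rw [abs_of_pos hx] at this
  exact this

theorem decay_Phi (H : Nice W a b) {K B : ℝ} (hK : 0 < K) (hB : 0 < B) :
    ∃ A : ℝ, Decay (Phi W K B) A := by
  obtain ⟨C, hC0, h⟩ := KER.Phi_rapid H hK hB 3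
  refine ⟨C, fun x hx => ?_⟩
  have := h x
  rw [abs_of_pos hx] at this
  refine this.trans (le_of_eq ?_)
  rw [zpow_neg]
  norm_cast

/-- the kernel formula in the notation of block FC, at `K = k_ν` -/
theorem integral_fd_Phi (H : Nice W a b) {B : ℝ} (hB : 0 < B) {ν : O} (hν : ν ≠ 0) (d : PD) :
    ∫ p, fd (Phi W (kf ν) B) (N (d : O)) p * En ν p.1 ∂(mH (km (Ioi 0)))
      = W (N (d : O) / B) := by
  have hk := kf_pos hν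
  obtain ⟨-, h2⟩ := KER.kernel H hk hB (N_pos_PD d) (mun_ne hν)
  rw [← hmeas_eq]
  have e1 : ∫ p, fd (Phi W (kf ν) B) (N (d : O)) p * En ν p.1 ∂hmeas
      = ∫ p : ℂ × ℝ, chr (mun ν) p.1 * Phi W (kf ν) B (2 * (N (d : O) : ℝ) * R3 p) ∂hmeas := by
    congr 1; funext p
    rw [fd_eq, En_eq_chr, mul_comm]
  rw [e1, h2]
  have e2 : kf ν / (4 * Real.pi * ‖mun ν‖) = 1 := by
    show kf ν / kf ν = 1
    exact div_self hk.ne'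
  rw [e2]
  simp

/-- the weighted sum as a Fourier coefficient -/
theorem tsum_aw_eq (H : Nice W a b) {c : O → ℂ} (hc : ∀ d, ‖c d‖ ≤ 1) {B : ℝ} (hB : 0 < B) {ν : O}
    (hν : ν ≠ 0) :
    ∑' d : PD, c d * (FC.gs ν d * W (N (d : O) / B))
      = ∫ p, FSa c (Phi W (kf ν) B) p * En ν p.1 ∂(mB (km (Ioi 0))) := by
  rw [← (hasSum_coeff_a' hc (clf_Phi H (kf_pos hν) hB) (le_refl _) ν).tsum_eq]
  refine tsum_congr fun d => ?_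
  rw [integral_fd_Phi H hB hν]

/-- norms of the profile `Phi W K B`, `K` fixed, `B ≥ 1` -/
theorem norms_Phi (H : Nice W a b) {K : ℝ} (hK : 0 < K) : ∃ C : ℝ, 0 ≤ C ∧ ∀ B : ℝ, 1 ≤ B →
    GRAM.CL (Phi W K B) ∧ ∃ Hh H1 : ℝ → ℂ, GRAM.HPair (Phi W K B) (Phi W K B) Hh H1 ∧
      GRAM.nrm2 (Phi W K B) ≤ C * B ^ 2 ∧ GRAM.nJ0 Hh + GRAM.nJ1 H1 ≤ C * B ^ 2 ∧
      GRAM.nL Hh ≤ C * (B ^ (4 / 3 : ℝ)) ^ 2 := by
  obtain ⟨C, hC0, hC⟩ := JB.main H H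
  refine ⟨C * K ^ 4 + C * (K ^ 3 * (K⁻¹) ^ (4 / 3 : ℝ)) ^ 2, by positivity, fun B hB => ?_⟩
  have hB0 : 0 < B := by linarith
  obtain ⟨h1, Hh, H1, h2, h3, h4, h5⟩ := hC 0 K B 1 1 hK hB0 one_pos one_pos 0
  have e : (fun x => Phi (KER.tw W 0) K B x - 0 * Phi W 1 1 x) = Phi W K B := by
    funext x
    rw [JB.tw_zero, zero_mul, sub_zero]
  rw [e] at h1 h2 h3
  have hn : 0 ≤ C * (K ^ 3 * (K⁻¹) ^ (4 / 3 : ℝ)) ^ 2 * B ^ 2 := by positivity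
  have e3 : C * (K ^ 4 * B ^ 2 / (1 + |(0 : ℝ)|) + ‖(0 : ℂ)‖ ^ 2 * (1 ^ 4 * 1 ^ 2))
      = C * K ^ 4 * B ^ 2 := by
    rw [abs_zero, norm_zero]; ring
  rw [e3] at h3 h4
  refine ⟨h1, Hh, H1, h2, by nlinarith, by nlinarith, ?_⟩
  have e4 : (K ^ 3 * (B / K) ^ (4 / 3 : ℝ) + ‖(0 : ℂ)‖ * (1 ^ 3 * (1 / 1) ^ (4 / 3 : ℝ))) ^ 2
      = (K ^ 3 * (K⁻¹) ^ (4 / 3 : ℝ)) ^ 2 * (B ^ (4 / 3 : ℝ)) ^ 2 := by
    rw [norm_zero, zero_mul, add_zero, div_eq_mul_inv, Real.mul_rpow hB0.le (by positivity)]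
    ring
  rw [e4] at h5
  refine h5.trans ?_
  have hn' : 0 ≤ C * K ^ 4 * (B ^ (4 / 3 : ℝ)) ^ 2 := by positivity
  calc C * ((K ^ 3 * (K⁻¹) ^ (4 / 3 : ℝ)) ^ 2 * (B ^ (4 / 3 : ℝ)) ^ 2)
      ≤ C * ((K ^ 3 * (K⁻¹) ^ (4 / 3 : ℝ)) ^ 2 * (B ^ (4 / 3 : ℝ)) ^ 2)
        + C * K ^ 4 * (B ^ (4 / 3 : ℝ)) ^ 2 := by linarith
    _ = _ := by ring

theorem one_add_log_le {B : ℝ} (hB : 1 ≤ B) : 1 + Real.log B ≤ 7 * B ^ (1 / 6 : ℝ) := by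
  have h1 := Real.log_le_rpow_div (x := B) (by linarith) (show (0 : ℝ) < 1 / 6 by norm_num)
  have h2 : 1 ≤ B ^ (1 / 6 : ℝ) := Real.one_le_rpow hB (by norm_num)
  linarith

/-- **(G*p)** for the profiles `Phi W K B` -/
theorem gp_Phi (H : Nice W a b) {K : ℝ} (hK : 0 < K) {p : O} (hp : Prime p) (hpp : Primary p) :
    ∃ C : ℝ, 0 ≤ C ∧ ∀ B : ℝ, 1 ≤ B →
      (∫ w in P3, Phi W K B (1 / w.v) * (starRingEnd ℂ) (Ediff p eta (Phi W K B) w) ∂muH).re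
        ≤ C * (B ^ 2 * B ^ (1 / 6 : ℝ)) := by
  obtain ⟨C1, hC10, h1⟩ := GRAM.strip_hyp_p
  obtain ⟨C2, hC20, h2⟩ := norms_Phi H hK
  refine ⟨C1 * (9 * C2), by positivity, fun B hB => ?_⟩
  have hB0 : 0 < B := by linarith
  obtain ⟨hCL, Hh, H1, hP, n1, n2, n3⟩ := h2 B hB
  have hA : 1 ≤ B ^ (2 / 3 : ℝ) := Real.one_le_rpow hB (by norm_num)
  have key := h1 p hp hpp _ Hh H1 hCL hP (B ^ (2 / 3 : ℝ)) hA
  have hlog0 := Real.log_nonneg hB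
  have m1 : 1 + Real.log (B ^ (2 / 3 : ℝ)) ≤ 7 * B ^ (1 / 6 : ℝ) := by
    rw [Real.log_rpow hB0]
    have := one_add_log_le hB
    linarith
  have m0 : 1 ≤ B ^ (1 / 6 : ℝ) := Real.one_le_rpow hB (by norm_num)
  have m2 : GRAM.nL Hh / B ^ (2 / 3 : ℝ) ≤ C2 * B ^ 2 := by
    rw [div_le_iff₀ (by positivity)]
    refine n3.trans (le_of_eq ?_)
    rw [mul_assoc]
    congr 1
    rw [← Real.rpow_natCast, ← Real.rpow_natCast, ← Real.rpow_mul hB0.le, ← Real.rpow_add hB0]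
    norm_num
  have hJ : 0 ≤ GRAM.nJ0 Hh + GRAM.nJ1 H1 := add_nonneg GRAM.nJ0_nonneg GRAM.nJ1_nonneg
  have hBB : B ^ 2 ≤ B ^ 2 * B ^ (1 / 6 : ℝ) := le_mul_of_one_le_right (by positivity) m0
  have m3 : (1 + Real.log (B ^ (2 / 3 : ℝ))) * (GRAM.nJ0 Hh + GRAM.nJ1 H1)
      ≤ (7 * B ^ (1 / 6 : ℝ)) * (C2 * B ^ 2) := mul_le_mul m1 n2 hJ (by positivity)
  refine key.trans ?_
  calc C1 * (GRAM.nrm2 (Phi W K B) + (1 + Real.log (B ^ (2 / 3 : ℝ))) *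
        (GRAM.nJ0 Hh + GRAM.nJ1 H1) + GRAM.nL Hh / B ^ (2 / 3 : ℝ))
      ≤ C1 * (C2 * (B ^ 2 * B ^ (1 / 6 : ℝ)) + (7 * B ^ (1 / 6 : ℝ)) * (C2 * B ^ 2)
        + C2 * (B ^ 2 * B ^ (1 / 6 : ℝ))) := by
        refine mul_le_mul_of_nonneg_left ?_ hC10
        have t1 := n1.trans (mul_le_mul_of_nonneg_left hBB hC20)
        have t2 := m2.trans (mul_le_mul_of_nonneg_left hBB hC20)
        linarith
    _ = _ := by ring

/-- **the weighted sum is small** -/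
theorem sum_aw_le (hT : TailHyp) (H : Nice W a b) {p : O} (hp : Prime p) (hpp : Primary p) {ν : O}
    (hν : ν ≠ 0) : ∃ C : ℝ, 0 ≤ C ∧ ∀ B : ℝ, 1 ≤ B →
      ‖∑' d : PD, aw p d * (FC.gs ν d * W (N (d : O) / B))‖ ≤ C * B ^ (7 / 6 : ℝ) := by
  have hk := kf_pos hν
  obtain ⟨C1, hC10, h1⟩ := gp_Phi H hk hp hpp
  obtain ⟨C2, hC20, h2⟩ := hT W a b H 72 (by norm_num)
  set V := volume.real FC.B with hV
  have hV0 : 0 ≤ V := measureReal_nonneg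
  set C3 : ℝ := C2 * ((kf ν) ^ 72)⁻¹ with hC3
  have hC30 : 0 ≤ C3 := by positivity
  set C4 : ℝ := 4 * (V * (51200 * C1)) + 2 * C3 ^ 2 with hC4
  have hC40 : 0 ≤ C4 := by positivity
  refine ⟨√C4, Real.sqrt_nonneg _, fun B hB => ?_⟩
  have hB0 : 0 < B := by linarith
  have hclf := clf_Phi H hk hB0
  obtain ⟨A', hdec⟩ := decay_Phi H hk hB0
  set R : ℝ := C1 * (B ^ 2 * B ^ (1 / 6 : ℝ)) with hR
  have hR0 : 0 ≤ R := by positivity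
  have hb : ∀ x : ℝ, 0 < x → ∫⁻ q, ‖FSa (aw p) (Phi W (kf ν) B) q‖ₑ ^ 2
      ∂(mB (km (Ioc x (2 * x)))) ≤ ENNReal.ofReal ((51200 * R) * (x ^ 3 + x)) := by
    intro x hx
    refine (strip_FSa (measurable_Phi' H (kf ν) B) hdec hp hpp hx).trans ?_
    rw [← ENNReal.ofReal_mul (by positivity)]
    apply ENNReal.ofReal_le_ofReal
    have := h1 B hB
    calc 51200 * (x ^ 3 + x) * (∫ w in P3, Phi W (kf ν) B (1 / w.v) *
          (starRingEnd ℂ) (Ediff p eta (Phi W (kf ν) B) w) ∂muH).re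
        ≤ 51200 * (x ^ 3 + x) * R := by
          apply mul_le_mul_of_nonneg_left this (by positivity)
      _ = _ := by ring
  set Y : ℝ := B ^ (1 / 24 : ℝ) with hY
  have hY1 : 1 ≤ Y := Real.one_le_rpow hB (by norm_num)
  have hY0 : 0 < Y := by linarith
  have key := basic_ineq_a (norm_aw_le p) hclf (A := 51200 * R) (by positivity) hb hY0 ν
  rw [← tsum_aw_eq H (norm_aw_le p) hB0 hν] at key
  have ht : tail (Phi W (kf ν) B) Y ν ≤ C3 := by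
    refine (h2 (kf ν) B Y hk hB0 hY0 ν hν).trans (le_of_eq ?_)
    have e1 : Y ^ 72 = B ^ 3 := by
      rw [hY, ← Real.rpow_natCast, ← Real.rpow_mul hB0.le, ← Real.rpow_natCast]
      norm_num
    rw [mul_pow, e1, hC3]
    field_simp
  have ht0 : 0 ≤ tail (Phi W (kf ν) B) Y ν := tsum_nonneg fun d => by positivity
  have hY4 : Y ^ 4 + Y ^ 2 ≤ 2 * B ^ (1 / 6 : ℝ) := by
    have e1 : Y ^ 4 = B ^ (1 / 6 : ℝ) := by
      rw [hY, ← Real.rpow_natCast, ← Real.rpow_mul hB0.le]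
      norm_num
    have e2 : Y ^ 2 ≤ Y ^ 4 := pow_le_pow_right₀ hY1 (by norm_num)
    linarith
  have e7 : (B ^ (7 / 6 : ℝ)) ^ 2 = B ^ 2 * B ^ (1 / 6 : ℝ) * B ^ (1 / 6 : ℝ) := by
    rw [← Real.rpow_natCast, ← Real.rpow_natCast, ← Real.rpow_mul hB0.le, ← Real.rpow_add hB0,
      ← Real.rpow_add hB0]
    norm_num
  have h71 : 1 ≤ (B ^ (7 / 6 : ℝ)) ^ 2 := one_le_pow₀ (Real.one_le_rpow hB (by norm_num))
  have key2 : ‖∑' d : PD, aw p d * (FC.gs ν d * W (N (d : O) / B))‖ ^ 2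
      ≤ C4 * (B ^ (7 / 6 : ℝ)) ^ 2 := by
    refine key.trans ?_
    have t1 : 2 * (V * (51200 * R) * (Y ^ 4 + Y ^ 2))
        ≤ 4 * (V * (51200 * C1)) * (B ^ (7 / 6 : ℝ)) ^ 2 := by
      calc 2 * (V * (51200 * R) * (Y ^ 4 + Y ^ 2))
          ≤ 2 * (V * (51200 * R) * (2 * B ^ (1 / 6 : ℝ))) := by gcongr
        _ = 4 * (V * (51200 * C1)) * (B ^ 2 * B ^ (1 / 6 : ℝ) * B ^ (1 / 6 : ℝ)) := by
            rw [hR]; ring
        _ = _ := by rw [e7]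
    have t2 : 2 * tail (Phi W (kf ν) B) Y ν ^ 2 ≤ 2 * C3 ^ 2 * (B ^ (7 / 6 : ℝ)) ^ 2 := by
      calc 2 * tail (Phi W (kf ν) B) Y ν ^ 2 ≤ 2 * C3 ^ 2 := by gcongr
        _ ≤ _ := le_mul_of_one_le_right (by positivity) h71
    rw [hC4]
    linarith
  have h8 : 0 ≤ √C4 * B ^ (7 / 6 : ℝ) := by positivity
  refine abs_le_of_sq_le_sq' ?_ h8 |>.2
  rw [mul_pow, Real.sq_sqrt hC40]
  exact key2

end Vale.Agent.P006.R1
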