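import Vale.Agent.P006.R1.Limit
import Mathlib.Analysis.Calculus.BumpFunction.FiniteDimension
import Mathlib.Analysis.Calculus.BumpFunction.Basic

/-!
P006, R1: the relations `Rho3 θ` between the residues from `FCHyp θ`.
-/

open MeasureTheory Set Filter
open scoped Topology ENNReal

namespace Vale.Agent.P006.R1

open Vale.Agent.P006 Vale.Agent.P006.FC
open Vale.Agent.P006.KER (Nice Phi tw hlf R3 hmeas chr)

variable {w : ℝ → ℂ} {a b : ℝ}

theorem Nice.bddSupp (H : Nice w a b) : BddSupp w :=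
  ⟨b, fun x hx => H.supp x (fun h => absurd h.2 (not_le.2 hx))⟩

/-- the weighted sum in both notations -/
theorem tsum_T_eq (c : O → ℂ) (ν : O) {Y : ℝ} (hY : 0 < Y) :
    ∑' d : O, c d * T w ν Y d
      = (((√Y)⁻¹ : ℝ) : ℂ) * ∑' d : PD, c d * (FC.gs ν d * hlf w (N (d : O) / Y)) := by
  classical
  have h1 : ∑' d : O, c d * T w ν Y d = ∑' d : PD, c d * T w ν Y d := by
    refine (tsum_subtype_eq_of_support_subset (s := {d : O | Primary d}) ?_).symm
    intro d hd
    by_contra hcon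
    apply hd
    have : ¬ Primary d := hcon
    show c d * T w ν Y d = 0
    rw [T, if_neg this, mul_zero]
  rw [h1, ← tsum_mul_left]
  refine tsum_congr fun d => ?_
  have hd0 : (d : O) ≠ 0 := d.2.ne_zero
  have hN : (0 : ℝ) < N (d : O) := N_pos_PD d
  rw [T, if_pos d.2, FC.gs_eq ν hd0, hlf, gt, Real.sqrt_div hN.le]
  have hsN : (√(N (d : O) : ℝ) : ℂ) ≠ 0 := by exact_mod_cast (Real.sqrt_pos.2 hN).ne'
  have hsY : (√Y : ℂ) ≠ 0 := by exact_mod_cast (Real.sqrt_pos.2 hY).ne'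
  push_cast
  field_simp

theorem summable_T (H : Nice w a b) (c : O → ℂ) (ν : O) {Y : ℝ} (hY : 0 < Y) :
    Summable fun d : O => c d * T w ν Y d := by
  apply summable_of_hasFiniteSupport
  refine (finite_support (Nice.bddSupp H) ν hY).subset fun d hd => ?_
  intro h
  apply hd
  show c d * T w ν Y d = 0
  rw [h, mul_zero]

/-- the difference of R1-A as a weighted sum -/
theorem D_sub_S (H : Nice w a b) (p ν : O) {Y : ℝ} (hY : 0 < Y) :
    D w p ν Y - ((N p + 1 : ℕ) : ℂ)⁻¹ * S w ν Y = ∑' d : O, aw p d * T w ν Y d := by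
  classical
  have h1 : D w p ν Y = ∑' d : O, (if p ∣ d then 1 else 0) * T w ν Y d := by
    rw [D]
    refine tsum_congr fun d => ?_
    split_ifs <;> simp
  rw [h1, S, ← tsum_mul_left, ← (summable_T H _ ν hY).tsum_sub (summable_T H _ ν hY)]
  refine tsum_congr fun d => ?_
  rw [aw]; ring

/-- **hypothesis (D_p)** of R1-A -/
theorem tendsto_diff (hT : TailHyp) (H : Nice w a b) {p : O} (hp : Prime p) (hpp : Primary p)
    {ν : O} (hν : ν ≠ 0) :
    Tendsto (fun Y : ℝ => (D w p ν Y - ((N p + 1 : ℕ) : ℂ)⁻¹ * S w ν Y) /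
      ((Y ^ (5 / 6 : ℝ) : ℝ) : ℂ)) atTop (𝓝 0) := by
  obtain ⟨C, hC0, hC⟩ := sum_aw_le hT (Nice.hlf H) hp hpp hν
  have h1 : Tendsto (fun Y : ℝ => C * Y ^ (-(1 / 6) : ℝ)) atTop (𝓝 0) := by
    have := (tendsto_rpow_neg_atTop (show (0 : ℝ) < 1 / 6 by norm_num)).const_mul C
    simpa using this
  refine squeeze_zero_norm' ?_ h1
  filter_upwards [eventually_ge_atTop 1] with Y hY
  have hY0 : 0 < Y := by linarith
  rw [D_sub_S H p ν hY0, tsum_T_eq (aw p) ν hY0, norm_div, norm_mul, Complex.norm_real,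
    Complex.norm_real, Real.norm_of_nonneg (by positivity), Real.norm_of_nonneg (by positivity),
    div_le_iff₀ (by positivity)]
  calc (√Y)⁻¹ * ‖∑' d : PD, aw p d * (FC.gs ν d * hlf w (N (d : O) / Y))‖
      ≤ (√Y)⁻¹ * (C * Y ^ (7 / 6 : ℝ)) := by
        apply mul_le_mul_of_nonneg_left (hC Y hY) (by positivity)
    _ = C * Y ^ (-(1 / 6) : ℝ) * Y ^ (5 / 6 : ℝ) := by
        rw [Real.sqrt_eq_rpow, ← Real.rpow_neg hY0.le, mul_left_comm, ← Real.rpow_add hY0,
          mul_assoc, ← Real.rpow_add hY0]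
        norm_num

/-- **hypothesis (S)** of R1-A -/
theorem tendsto_S {θ : O → ℂ} (hF : V2.FCHyp θ) (H : Nice w a b) {ν : O} (hν : ν ≠ 0) :
    Tendsto (fun Y : ℝ => S w ν Y / ((Y ^ (5 / 6 : ℝ) : ℝ) : ℂ)) atTop
      (𝓝 (θ ν * mellin w (5 / 6 : ℂ))) := by
  obtain ⟨C, hC0, hC⟩ := hF w a b H (1 / 6) (by norm_num)
  have hN1 : (1 : ℝ) ≤ N ν := by exact_mod_cast N_pos hν
  rw [← tendsto_sub_nhds_zero_iff]
  set C' : ℝ := √(C * (N ν : ℝ) ^ (1 / 6 : ℝ) * (N ν + 1)) with hC'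
  have h1 : Tendsto (fun Y : ℝ => C' * Y ^ (-(1 / 4) : ℝ)) atTop (𝓝 0) := by
    have := (tendsto_rpow_neg_atTop (show (0 : ℝ) < 1 / 4 by norm_num)).const_mul C'
    simpa using this
  refine squeeze_zero_norm' ?_ h1
  filter_upwards [eventually_ge_atTop 1] with Y hY
  have hY0 : 0 < Y := by linarith
  have h2 := hC (N ν) Y 0 hN1 hY {ν} (fun _ => Y) (by simpa using hν) (by
    intro m _
    exact ⟨le_rfl, by linarith⟩)
  rw [Finset.sum_singleton] at h2
  have e1 : V2.FS w 0 ν Y = S w ν Y := by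
    rw [V2.FS, S]
    refine tsum_congr fun c => ?_
    rw [T]
    split_ifs with hc
    · simp
    · rfl
  have e2 : V2.FM w 0 (θ ν) Y = θ ν * mellin w (5 / 6 : ℂ) * ((Y ^ (5 / 6 : ℝ) : ℝ) : ℂ) := by
    rw [V2.FM]
    have : (5 / 6 : ℂ) + ((0 : ℝ) : ℂ) * Complex.I = 5 / 6 := by simp
    rw [this, Complex.ofReal_cpow hY0.le]
    push_cast
    ring
  rw [e1, e2] at h2
  have hYne : ((Y ^ (5 / 6 : ℝ) : ℝ) : ℂ) ≠ 0 := by
    exact_mod_cast (Real.rpow_pos_of_pos hY0 _).ne'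
  have e3 : S w ν Y / ((Y ^ (5 / 6 : ℝ) : ℝ) : ℂ) - θ ν * mellin w (5 / 6 : ℂ)
      = (S w ν Y - θ ν * mellin w (5 / 6 : ℂ) * ((Y ^ (5 / 6 : ℝ) : ℝ) : ℂ)) /
        ((Y ^ (5 / 6 : ℝ) : ℝ) : ℂ) := by
    field_simp
  rw [e3, norm_div, Complex.norm_real, Real.norm_of_nonneg (by positivity),
    div_le_iff₀ (by positivity)]
  refine abs_le_of_sq_le_sq' (h2.trans ?_) (by positivity) |>.2
  have hS0 : 0 ≤ C * (N ν : ℝ) ^ (1 / 6 : ℝ) * (N ν + 1) := by positivity
  rw [mul_pow, mul_pow, hC', Real.sq_sqrt hS0, abs_zero, add_zero, mul_one,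
    Real.mul_rpow (by positivity) hY0.le]
  have e4 : (Y ^ (-(1 / 4) : ℝ)) ^ 2 * (Y ^ (5 / 6 : ℝ)) ^ 2 = Y ^ (1 / 6 : ℝ) * Y := by
    rw [← Real.rpow_natCast, ← Real.rpow_natCast, ← Real.rpow_mul hY0.le, ← Real.rpow_mul hY0.le,
      ← Real.rpow_add hY0, ← Real.rpow_add_one hY0.ne']
    norm_num
  rw [mul_assoc (C * (N ν : ℝ) ^ (1 / 6 : ℝ) * (N ν + 1)), e4]
  apply le_of_eq
  ring

/-- a weight with non-vanishing Mellin transform at `5/6` -/
theorem exists_weight : ∃ (w : ℝ → ℂ) (a b : ℝ), Nice w a b ∧ mellin w (5 / 6 : ℂ) ≠ 0 := by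
  let g : ContDiffBump (3 / 2 : ℝ) := ⟨1 / 8, 1 / 4, by norm_num, by norm_num⟩
  have hg0 : ∀ x, 0 ≤ g x := fun x => g.nonneg
  have hgc : Continuous (g : ℝ → ℝ) := g.continuous
  have hgs : ∀ x, x ∉ Icc (1 : ℝ) 2 → g x = 0 := by
    intro x hx
    apply g.zero_of_le_dist
    show (1 / 4 : ℝ) ≤ dist x (3 / 2)
    rw [Real.dist_eq]
    by_contra h
    apply hx
    rw [not_le, abs_lt] at h
    constructor <;> linarith [h.1, h.2]
  refine ⟨fun x => (g x : ℂ), 1, 2, ⟨?_, one_pos, by norm_num, ?_⟩, ?_⟩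
  · exact Complex.ofRealCLM.contDiff.comp g.contDiff
  · intro x hx
    rw [hgs x hx, Complex.ofReal_zero]
  · have e1 : mellin (fun x : ℝ => (g x : ℂ)) (5 / 6 : ℂ)
        = ((∫ x in Ioi (0 : ℝ), x ^ (-(1 / 6) : ℝ) * g x : ℝ) : ℂ) := by
      rw [mellin, ← integral_complex_ofReal]
      refine setIntegral_congr_fun measurableSet_Ioi fun x hx => ?_
      have hx0 : (0 : ℝ) < x := hx
      rw [smul_eq_mul, Complex.ofReal_mul, Complex.ofReal_cpow hx0.le]
      congr 2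
      push_cast
      norm_num
    rw [e1, Complex.ofReal_ne_zero]
    apply ne_of_gt
    have hcont : ContinuousOn (fun x : ℝ => x ^ (-(1 / 6) : ℝ) * g x) (Icc 1 2) := by
      apply ContinuousOn.mul _ hgc.continuousOn
      intro x hx
      exact (Real.continuousAt_rpow_const x _ (Or.inl (by linarith [hx.1] : x ≠ 0))).continuousWithinAt
    have hint : IntegrableOn (fun x : ℝ => x ^ (-(1 / 6) : ℝ) * g x) (Ioi 0) := by
      have h1 : IntegrableOn (fun x : ℝ => x ^ (-(1 / 6) : ℝ) * g x) (Icc 1 2) :=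
        hcont.integrableOn_compact isCompact_Icc
      have h2 := h1.integrable_of_forall_notMem_eq_zero (fun x hx => by
        rw [hgs x hx, mul_zero])
      exact h2.integrableOn
    rw [setIntegral_pos_iff_support_of_nonneg_ae]
    · refine lt_of_lt_of_le ?_ (measure_mono (s := Ioo (11 / 8 : ℝ) (13 / 8)) ?_)
      · rw [Real.volume_Ioo]; norm_num
      · intro x hx
        have hx0 : (0 : ℝ) < x := by linarith [hx.1]
        refine ⟨?_, hx0⟩
        have hg1 : g x = 1 := by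
          apply g.one_of_mem_closedBall
          show dist x (3 / 2) ≤ 1 / 8
          rw [Real.dist_eq, abs_le]
          constructor <;> linarith [hx.1, hx.2]
        show x ^ (-(1 / 6) : ℝ) * g x ≠ 0
        rw [hg1, mul_one]
        exact (Real.rpow_pos_of_pos hx0 _).ne'
    · filter_upwards [ae_restrict_mem measurableSet_Ioi] with x hx
      have hx0 : (0 : ℝ) < x := hx
      show 0 ≤ x ^ (-(1 / 6) : ℝ) * g x
      have := hg0 x
      positivity
    · exact hint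

/-- **R1**: the relations between the residues -/
theorem rho3_of (hT : TailHyp) {θ : O → ℂ} (hF : V2.FCHyp θ) : V2.Rho3 θ := by
  obtain ⟨w, a, b, H, hW⟩ := exists_weight
  have hw := Nice.bddSupp H
  have hS : ∀ ν : O, ν ≠ 0 → _ := fun ν hν => tendsto_S hF H hν
  constructor
  · constructor
    · intro s p hs hp hps
      have := theta_mul hw hp.2 hp.1 hW hS (fun ν hν => tendsto_diff hT H hp.2 hp.1 hν) hps
      rw [mul_comm s p]
      exact this
    · intro s p hs hp hps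
      have := theta_sq hw hp.2 hp.1 hW hS (fun ν hν => tendsto_diff hT H hp.2 hp.1 hν) hps
      rw [mul_comm s (p ^ 2)]
      exact this
  · intro s p v hs hp hps
    have h0 : s * p ^ v ≠ 0 := mul_ne_zero hs.ne_zero (pow_ne_zero v hp.2.ne_zero)
    have := theta_cube hw hp.2 hp.1 hW hS (fun ν hν => tendsto_diff hT H hp.2 hp.1 hν) h0
    rw [← this]
    congr 1
    ring

/-- the cube relation for arbitrary nonzero frequencies -/
theorem theta_cube_all (hT : TailHyp) {θ : O → ℂ} (hF : V2.FCHyp θ) {p m : O} (hp : Prime p)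
    (hpp : Primary p) (hm : m ≠ 0) : θ (p ^ 3 * m) = θ m := by
  obtain ⟨w, a, b, H, hW⟩ := exists_weight
  exact theta_cube (Nice.bddSupp H) hp hpp hW (fun ν hν => tendsto_S hF H hν)
    (fun ν hν => tendsto_diff hT H hp hpp hν) hm

end Vale.Agent.P006.R1
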